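import Mathlib

/-! N134: definitions for the local forms of the conjecture of De Giorgi. -/

open MeasureTheory
open scoped InnerProductSpace Laplacian

namespace Vale.Agent.N134

/-- Euclidean space `ℝⁿ`. -/
abbrev E (n : ℕ) : Type := EuclideanSpace ℝ (Fin n)

variable {n : ℕ}

/-- `u` is `C²` in `Ω` and solves `Δ u = u³ - u` in `Ω`; no bound on `u` is required. -/
def Solves (u : E n → ℝ) (Ω : Set (E n)) : Prop :=
  ContDiffOn ℝ 2 u Ω ∧ ∀ x ∈ Ω, Δ u x = u x ^ 3 - u x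

/-- test functions: smooth, with compact support contained in `Ω`. -/
def Test (Ω : Set (E n)) (η : E n → ℝ) : Prop :=
  ContDiff ℝ (⊤ : ℕ∞) η ∧ HasCompactSupport η ∧ tsupport η ⊆ Ω

/-- the second variation of the energy at `u`. -/
noncomputable def Q (u η : E n → ℝ) : ℝ :=
  ∫ x, (‖fderiv ℝ η x‖ ^ 2 + (3 * u x ^ 2 - 1) * η x ^ 2)

/-- `u` is stable in `Ω`. -/
def Stable (u : E n → ℝ) (Ω : Set (E n)) : Prop := ∀ η, Test Ω η → 0 ≤ Q u η

/-- the Morse index of `u` in `Ω` is at most `m`: every space of test functions on which `Q u` is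
negative definite has dimension at most `m`. -/
def IndexLE (u : E n → ℝ) (Ω : Set (E n)) (m : ℕ) : Prop :=
  ∀ W : Submodule ℝ (E n → ℝ), (∀ η ∈ W, Test Ω η ∧ (η ≠ 0 → Q u η < 0)) → Module.rank ℝ W ≤ m

/-- the constants `1`, `-1` and the flat layers `tanh ((⟨e, x⟩ - c) / √2)`, `‖e‖ = 1`. -/
def Flat (v : E n → ℝ) : Prop :=
  (∀ x, v x = 1) ∨ (∀ x, v x = -1) ∨
    ∃ (e : E n) (c : ℝ), ‖e‖ = 1 ∧ ∀ x, v x = Real.tanh ((⟪e, x⟫_ℝ - c) / √2)

/-- on `S`, `u` is within `ε` of a flat solution, with its derivatives of order `1` and `2`. -/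
def NearFlat (u : E n → ℝ) (S : Set (E n)) (ε : ℝ) : Prop :=
  ∃ v, Flat v ∧ ∀ x ∈ S, ∀ k ≤ 2, ‖iteratedFDeriv ℝ k (u - v) x‖ ≤ ε

end Vale.Agent.N134
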