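import Vale.Agent.N134.Grad

/-! N134: interior estimates up to the third order for solutions in a box, and compactness of
sequences of solutions in growing boxes. -/

set_option linter.all false

open Filter Topology

namespace Vale.Agent.N134

open Vale.Agent.P134

variable {n : ℕ} {r : ℝ} {w g : (Fin n → ℝ) → ℝ} {x v v' : Fin n → ℝ}

/-- functions of class `C²` which solve the equation in the box of size `r`. -/
structure LSol (r : ℝ) (w : (Fin n → ℝ) → ℝ) : Prop where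
  c2 : ContDiff ℝ 2 w
  eq : ∀ y, ‖y‖ ≤ r → ∑ i, pd i (pd i w) y = w y ^ 3 - w y

lemma nadd {a b : ℝ} {x y : Fin n → ℝ} (hx : ‖x‖ + a ≤ r) (hy : ‖y‖ ≤ 1) (h : b + 1 ≤ a) :
    ‖x + y‖ + b ≤ r := by
  linarith [norm_add_le x y]

lemma LSol.bd (h : LSol r w) (hx : ‖x‖ + (n + 3) ≤ r) : |w x| ≤ 2 := by
  have hn : (0:ℝ) ≤ n := Nat.cast_nonneg n
  have := ko h.c2 (x := x) (s := n + 3) (by linarith) one_pos (by nlinarith) fun y hy =>
    h.eq y (by
      have := norm_add_le x (y - x)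
      rw [add_sub_cancel] at this
      linarith)
  linarith

lemma LSol.eq' (h : LSol r w) (hx : ‖x‖ + (n + 3) ≤ r) :
    ∑ i, pd i (pd i w) x = w x ^ 3 - w x :=
  h.eq x (by have : (0:ℝ) ≤ n := Nat.cast_nonneg n; linarith)

/-- constants of the estimates. -/
def ka (n : ℕ) : ℝ := n * 2 + 5
noncomputable def kb (n : ℕ) : ℝ := n * (n * ka n) + 13 * (n * ka n) / 2
noncomputable def kc (n : ℕ) : ℝ := n * (n * kb n) + (13 * (n * kb n) + 12 * (n * ka n) ^ 2) / 2

lemma ka_pos : 0 ≤ ka n := by unfold ka; positivity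
lemma kb_pos : 0 ≤ kb n := by have := ka_pos (n := n); unfold kb; positivity
lemma kc_pos : 0 ≤ kc n := by
  have := ka_pos (n := n); have := kb_pos (n := n); unfold kc; positivity

lemma LSol.pd_le (h : LSol r w) (hx : ‖x‖ + (n + 4) ≤ r) (q : Fin n) : |pd q w x| ≤ ka n := by
  have := grad_loc h.c2 (M := 2) (N := 10) (x := x)
    (fun y hy => h.bd (nadd hx hy (by linarith))) (fun y hy => by
      have h1 := nadd (b := n + 3) hx hy (by linarith)
      rw [h.eq' h1]
      have h2 := abs_le.mp (h.bd h1)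
      rw [abs_le]
      constructor <;> nlinarith [sq_nonneg (w (x + y) + 2), sq_nonneg (w (x + y) - 2)]) q
  unfold ka
  linarith

lemma abs_sub_loc (hg : Differentiable ℝ g) {L ρ : ℝ}
    (hL : ∀ z, ‖z‖ ≤ ρ → ∀ i, |pd i g z| ≤ L) (hx : ‖x‖ ≤ ρ) (hv : ‖x + v‖ ≤ ρ) :
    |g (x + v) - g x| ≤ n * L * ‖v‖ := by
  have := Convex.norm_image_sub_le_of_norm_fderiv_le (𝕜 := ℝ) (f := g) (s := Metric.closedBall 0 ρ)
    (C := n * L) (x := x) (y := x + v) (fun z _ => hg z)
    (fun z hz => norm_fderiv_le_of_pd (hL z (by simpa using hz))) (convex_closedBall 0 ρ)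
    (by simpa using hx) (by simpa using hv)
  simpa only [ge_iff_le, Real.norm_eq_abs, add_sub_cancel_left] using this

lemma LSol.diff_le (h : LSol r w) (hx : ‖x‖ + (n + 5) ≤ r) (hv : ‖v‖ ≤ 1) :
    |w (x + v) - w x| ≤ n * ka n * ‖v‖ :=
  abs_sub_loc (h.c2.differentiable (by norm_num)) (ρ := r - (n + 4))
    (fun z hz i => h.pd_le (by linarith) i) (by linarith)
    (by have := nadd (b := n + 4) hx hv (by linarith); linarith)

lemma cub_le {a b : ℝ} (ha : |a| ≤ 2) (hb : |b| ≤ 2) : |a ^ 2 + a * b + b ^ 2 - 1| ≤ 13 := by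
  rw [abs_le] at *
  constructor <;> nlinarith [sq_nonneg (a + b)]

lemma cub_diff_le {a b a' b' : ℝ} (ha : |a| ≤ 2) (hb : |b| ≤ 2) (ha' : |a'| ≤ 2)
    (hb' : |b'| ≤ 2) :
    |(a' ^ 2 + a' * b' + b' ^ 2 - 1) - (a ^ 2 + a * b + b ^ 2 - 1)|
      ≤ 6 * (|a' - a| + |b' - b|) := by
  have e : (a' ^ 2 + a' * b' + b' ^ 2 - 1) - (a ^ 2 + a * b + b ^ 2 - 1)
      = (a' - a) * (a' + a + b') + (b' - b) * (a + b' + b) := by ring
  have h1 : |a' + a + b'| ≤ 6 := by
    rw [abs_le] at *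
    constructor <;> linarith
  have h2 : |a + b' + b| ≤ 6 := by
    rw [abs_le] at *
    constructor <;> linarith
  rw [e]
  calc |(a' - a) * (a' + a + b') + (b' - b) * (a + b' + b)|
      ≤ |(a' - a) * (a' + a + b')| + |(b' - b) * (a + b' + b)| := abs_add_le _ _
    _ = |a' - a| * |a' + a + b'| + |b' - b| * |a + b' + b| := by rw [abs_mul, abs_mul]
    _ ≤ |a' - a| * 6 + |b' - b| * 6 := by gcongr
    _ = 6 * (|a' - a| + |b' - b|) := by ring

lemma LSol.lap_diff (h : LSol r w) (hx : ‖x‖ + (n + 4) ≤ r) (hv : ‖v‖ ≤ 1) :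
    ∑ i, pd i (pd i fun y => w (y + v) - w y) x
      = (w (x + v) ^ 2 + w (x + v) * w x + w x ^ 2 - 1) * (w (x + v) - w x) := by
  rw [P134.lap_diff h.c2, h.eq' (nadd hx hv (by linarith)), h.eq' (by linarith), cubic_diff]

lemma LSol.pd_diff_le (h : LSol r w) (hx : ‖x‖ + (n + 6) ≤ r) (hv : ‖v‖ ≤ 1) (q : Fin n) :
    |pd q w (x + v) - pd q w x| ≤ kb n * ‖v‖ := by
  have := grad_loc (contDiff_diff h.c2 v) (x := x) (M := n * ka n * ‖v‖)
    (N := 13 * (n * ka n * ‖v‖)) (fun y hy => h.diff_le (nadd hx hy (by linarith)) hv)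
    (fun y hy => by
      have h1 := nadd (b := n + 5) hx hy (by linarith)
      rw [h.lap_diff (by linarith) hv, abs_mul]
      exact mul_le_mul (cub_le (h.bd (nadd h1 hv (by linarith))) (h.bd (by linarith)))
        (h.diff_le h1 hv) (abs_nonneg _) (by norm_num)) q
  rw [pd_diff (h.c2.differentiable (by norm_num))] at this
  calc _ ≤ _ := this
    _ = _ := by unfold kb; ring

lemma LSol.second_diff_le (h : LSol r w) (hx : ‖x‖ + (n + 8) ≤ r) (hv : ‖v‖ ≤ 1)
    (hv' : ‖v'‖ ≤ 1) (q : Fin n) :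
    |(pd q w (x + v + v') - pd q w (x + v)) - (pd q w (x + v') - pd q w x)|
      ≤ kc n * ‖v‖ * ‖v'‖ := by
  obtain ⟨g, hg⟩ : ∃ g : (Fin n → ℝ) → ℝ, g = fun y => w (y + v') - w y := ⟨_, rfl⟩
  have hgc : ContDiff ℝ 2 g := by rw [hg]; exact contDiff_diff h.c2 v'
  have hgd : Differentiable ℝ g := hgc.differentiable (by norm_num)
  have hpg : ∀ z, ‖z‖ ≤ r - (n + 6) → ∀ i, |pd i g z| ≤ kb n * ‖v'‖ := by
    intro z hz i
    rw [hg, pd_diff (h.c2.differentiable (by norm_num))]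
    exact h.pd_diff_le (by linarith) hv' i
  have hw1 : ∀ z, ‖z‖ + (n + 7) ≤ r → |g (z + v) - g z| ≤ n * (kb n * ‖v'‖) * ‖v‖ :=
    fun z hz => abs_sub_loc hgd hpg (by linarith)
      (by have := nadd (b := n + 6) hz hv (by linarith); linarith)
  have hlap : ∀ z, ‖z‖ + (n + 4) ≤ r → ∑ i, pd i (pd i g) z
      = (w (z + v') ^ 2 + w (z + v') * w z + w z ^ 2 - 1) * g z := by
    intro z hz
    rw [hg]; exact h.lap_diff hz hv'
  have hN : ∀ z, ‖z‖ + (n + 7) ≤ r → |∑ i, pd i (pd i (fun y => g (y + v) - g y)) z|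
      ≤ 13 * (n * (kb n * ‖v'‖) * ‖v‖) + (n * ka n * ‖v'‖) * (12 * (n * ka n * ‖v‖)) := by
    intro z hz
    have z1 := nadd (b := n + 6) hz hv (by linarith)
    have z2 := nadd (b := n + 6) hz hv' (by linarith)
    have z3 := nadd (b := n + 5) z1 hv' (by linarith)
    rw [P134.lap_diff hgc, hlap _ (by linarith), hlap _ (by linarith)]
    obtain ⟨c', hc'⟩ : ∃ c', c' = w (z + v + v') ^ 2 + w (z + v + v') * w (z + v)
      + w (z + v) ^ 2 - 1 := ⟨_, rfl⟩
    obtain ⟨c, hc⟩ : ∃ c, c = w (z + v') ^ 2 + w (z + v') * w z + w z ^ 2 - 1 := ⟨_, rfl⟩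
    rw [← hc', ← hc]
    have e : c' * g (z + v) - c * g z = c' * (g (z + v) - g z) + g z * (c' - c) := by ring
    have b1 : |c'| ≤ 13 := by rw [hc']; exact cub_le (h.bd (by linarith)) (h.bd (by linarith))
    have b2 : |g z| ≤ n * ka n * ‖v'‖ := by rw [hg]; exact h.diff_le (by linarith) hv'
    have b3 : |c' - c| ≤ 12 * (n * ka n * ‖v‖) := by
      have := cub_diff_le (h.bd (x := z + v') (by linarith)) (h.bd (x := z) (by linarith))
        (h.bd (x := z + v + v') (by linarith)) (h.bd (x := z + v) (by linarith))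
      have d1 := h.diff_le (x := z + v') (by linarith) hv
      have d2 := h.diff_le (x := z) (by linarith) hv
      rw [show z + v' + v = z + v + v' by abel] at d1
      rw [hc', hc]
      linarith only [this, d1, d2]
    have := ka_pos (n := n)
    rw [e]
    calc |c' * (g (z + v) - g z) + g z * (c' - c)|
        ≤ |c' * (g (z + v) - g z)| + |g z * (c' - c)| := abs_add_le _ _
      _ = |c'| * |g (z + v) - g z| + |g z| * |c' - c| := by rw [abs_mul, abs_mul]
      _ ≤ _ := by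
        gcongr
        exact hw1 z hz
  have := grad_loc (contDiff_diff hgc v) (x := x)
    (fun y hy => hw1 _ (nadd hx hy (by linarith))) (fun y hy => hN _ (nadd hx hy (by linarith))) q
  rw [pd_diff hgd, hg, pd_diff (h.c2.differentiable (by norm_num))] at this
  calc _ ≤ _ := this
    _ = _ := by unfold kc; ring

lemma deriv_le_loc {φ : ℝ → ℝ} {d K : ℝ} (hd : HasDerivAt φ d 0) (hK : 0 ≤ K)
    (h : ∀ s, |s| ≤ 1 → |φ s - φ 0| ≤ K * |s|) : |d| ≤ K := by
  have := hd.hasFDerivAt.le_of_lip' (C := K) hK (by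
    filter_upwards [Metric.closedBall_mem_nhds (0:ℝ) one_pos] with s hs
    simpa only [Real.norm_eq_abs, sub_zero] using h s (by simpa using hs))
  simpa only [ge_iff_le, ContinuousLinearMap.norm_toSpanSingleton, Real.norm_eq_abs] using this

lemma hasDerivAt_pd (hg : Differentiable ℝ g) (z : Fin n → ℝ) (i : Fin n) :
    HasDerivAt (fun s : ℝ => g (z + s • Pi.single i 1)) (pd i g z) 0 := by
  have := hasDerivAt_dir (w := g) (x := z) (v := Pi.single i 1) (s := 0) (hg _)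
  simpa only [pd, zero_smul, add_zero] using this

lemma LSol.pd2_le (h : LSol r w) (hx : ‖x‖ + (n + 6) ≤ r) (i j : Fin n) :
    |pd i (pd j w) x| ≤ kb n := by
  apply deriv_le_loc
    (hasDerivAt_pd ((contDiff_pd_one h.c2).differentiable (by norm_num)) x i) kb_pos
  intro s hs
  have := h.pd_diff_le hx (v := s • Pi.single i 1) (by rwa [norm_smul_single]) j
  rw [norm_smul_single] at this
  simpa only [zero_smul, add_zero, ge_iff_le] using this

lemma LSol.pd2_diff_le (h : LSol r w) (hx : ‖x‖ + (n + 8) ≤ r) (hv : ‖v‖ ≤ 1) (i j : Fin n) :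
    |pd i (pd j w) (x + v) - pd i (pd j w) x| ≤ kc n * ‖v‖ := by
  have hd : Differentiable ℝ (pd j w) := (contDiff_pd_one h.c2).differentiable (by norm_num)
  apply deriv_le_loc ((hasDerivAt_pd hd (x + v) i).fun_sub (hasDerivAt_pd hd x i))
    (mul_nonneg kc_pos (norm_nonneg _))
  intro s hs
  have := h.second_diff_le hx hv (v' := s • Pi.single i 1) (by rwa [norm_smul_single]) j
  rw [norm_smul_single] at this
  have e : (pd j w (x + v + s • Pi.single i 1) - pd j w (x + s • Pi.single i 1))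
      - (pd j w (x + v + (0:ℝ) • Pi.single i 1) - pd j w (x + (0:ℝ) • Pi.single i 1))
      = (pd j w (x + v + s • Pi.single i 1) - pd j w (x + v))
        - (pd j w (x + s • Pi.single i 1) - pd j w x) := by
    simp only [zero_smul, add_zero]; ring
  rw [e]
  exact this

/-! ### Limits -/

section lim

variable {ι : Type*} {l : Filter ι} {F : ι → (Fin n → ℝ) → ℝ} {U : (Fin n → ℝ) → ℝ} {L : ℝ}

/-- eventually locally Lipschitz families. -/
def EL (l : Filter ι) (L : ℝ) (F : ι → (Fin n → ℝ) → ℝ) : Prop :=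
  ∀ ρ : ℝ, ∀ᶠ k in l, ∀ x v, ‖x‖ ≤ ρ → ‖v‖ ≤ 1 → |F k (x + v) - F k x| ≤ L * ‖v‖

lemma EL.lip [l.NeBot] (h : EL l L F) (hlim : ∀ x, Tendsto (fun k => F k x) l (𝓝 (U x)))
    (x : Fin n → ℝ) (hv : ‖v‖ ≤ 1) : |U (x + v) - U x| ≤ L * ‖v‖ :=
  le_of_tendsto ((hlim (x + v)).sub (hlim x)).abs
    ((h ‖x‖).mono fun k hk => hk x v le_rfl hv)

lemma cont_of_lip (h : ∀ x v, ‖v‖ ≤ 1 → |U (x + v) - U x| ≤ L * ‖v‖) : Continuous U := by
  rw [Metric.continuous_iff]
  intro x ε hε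
  refine ⟨min 1 (ε / (|L| + 1)), by positivity, fun y hy => ?_⟩
  rw [dist_eq_norm, lt_min_iff] at hy
  have h1 := h x (y - x) hy.1.le
  rw [add_sub_cancel] at h1
  rw [Real.dist_eq]
  calc |U y - U x| ≤ L * ‖y - x‖ := h1
    _ ≤ (|L| + 1) * ‖y - x‖ :=
        mul_le_mul_of_nonneg_right (by linarith only [le_abs_self L]) (norm_nonneg _)
    _ < (|L| + 1) * (ε / (|L| + 1)) := mul_lt_mul_of_pos_left hy.2 (by positivity)
    _ = ε := by field_simp

/-- pointwise convergence is locally uniform. -/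
lemma EL.unif [l.NeBot] (h : EL l L F) (hL : 0 ≤ L)
    (hlim : ∀ x, Tendsto (fun k => F k x) l (𝓝 (U x))) (ρ : ℝ) {ε : ℝ} (hε : 0 < ε) :
    ∀ᶠ k in l, ∀ x, ‖x‖ ≤ ρ → |F k x - U x| ≤ ε := by
  have hδ : 0 < min 1 (ε / (3 * (L + 1))) := by positivity
  obtain ⟨t, ht1, ht2⟩ := (isCompact_closedBall (0 : Fin n → ℝ) ρ).elim_nhds_subcover
    (fun x => Metric.ball x (min 1 (ε / (3 * (L + 1))))) (fun x _ => Metric.ball_mem_nhds x hδ)
  have hev : ∀ᶠ s in l, ∀ c ∈ t, |F s c - U c| ≤ ε / 3 := by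
    rw [Filter.eventually_all_finset]
    intro c _
    have h1 := (hlim c).sub_const (U c)
    rw [sub_self] at h1
    have h2 := h1.abs
    rw [abs_zero] at h2
    exact (h2.eventually (ge_mem_nhds (show (0:ℝ) < ε / 3 by positivity)))
  filter_upwards [hev, h ρ] with s hs hs' x hx
  obtain ⟨c, hc, hxc⟩ := Set.mem_iUnion₂.mp (ht2 (show x ∈ Metric.closedBall 0 ρ by simpa using hx))
  rw [Metric.mem_ball, dist_eq_norm, lt_min_iff] at hxc
  have h3 : L * ‖x - c‖ ≤ ε / 3 := by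
    calc L * ‖x - c‖ ≤ (L + 1) * (ε / (3 * (L + 1))) :=
          mul_le_mul (by linarith) hxc.2.le (norm_nonneg _) (by linarith)
      _ = ε / 3 := by field_simp
  have h4 := (hs' c (x - c) (by simpa using ht1 c hc) hxc.1.le).trans h3
  have h5 := (h.lip hlim c hxc.1.le).trans h3
  rw [add_sub_cancel] at h4 h5
  have h6 := hs c hc
  rw [abs_le] at *
  constructor <;> linarith [h4.1, h4.2, h5.1, h5.2, h6.1, h6.2]

lemma taylor_loc (hg : Differentiable ℝ g) {C : ℝ} (hC0 : 0 ≤ C)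
    (hC : ∀ v i, ‖v‖ ≤ 1 → |pd i g (x + v) - pd i g x| ≤ C * ‖v‖) (hv : ‖v‖ ≤ 1) :
    |g (x + v) - g x - ∑ i, v i * pd i g x| ≤ n * C * ‖v‖ ^ 2 := by
  have key := Convex.norm_image_sub_le_of_norm_hasFDerivWithin_le' (𝕜 := ℝ) (f := g)
    (f' := fun z => fderiv ℝ g z) (φ := fderiv ℝ g x)
    (s := Metric.closedBall x ‖v‖) (C := n * C * ‖v‖) (x := x) (y := x + v)
    (fun z _ => (hg z).hasFDerivAt.hasFDerivWithinAt)
    (fun z hz => ?_) (convex_closedBall x ‖v‖) (Metric.mem_closedBall_self (norm_nonneg v)) (by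
      simp [Metric.mem_closedBall, dist_eq_norm])
  · rw [← fderiv_eq_sum_pd]
    have e : x + v - x = v := by abel
    rw [e] at key
    calc |g (x + v) - g x - fderiv ℝ g x v| ≤ n * C * ‖v‖ * ‖v‖ := key
      _ = n * C * ‖v‖ ^ 2 := by ring
  · apply ContinuousLinearMap.opNorm_le_bound _ (by positivity)
    intro y
    have hz' : ‖z - x‖ ≤ ‖v‖ := by simpa only [Metric.mem_closedBall, dist_eq_norm] using hz
    rw [sub_apply, fderiv_eq_sum_pd, fderiv_eq_sum_pd, ← Finset.sum_sub_distrib]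
    calc ‖∑ i, (y i * pd i g z - y i * pd i g x)‖
        ≤ ∑ i, ‖y i * pd i g z - y i * pd i g x‖ := norm_sum_le _ _
      _ ≤ ∑ _i : Fin n, C * ‖v‖ * ‖y‖ := by
          apply Finset.sum_le_sum
          intro i _
          rw [← mul_sub, norm_mul, mul_comm]
          have h1 : ‖pd i g z - pd i g x‖ ≤ C * ‖v‖ := by
            have := hC (z - x) i (hz'.trans hv)
            rw [add_sub_cancel] at this
            exact this.trans (mul_le_mul_of_nonneg_left hz' hC0)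
          exact mul_le_mul h1 (norm_le_pi_norm y i) (norm_nonneg _) ((norm_nonneg _).trans h1)
      _ = n * C * ‖v‖ * ‖y‖ := by
          simp only [Finset.sum_const, Finset.card_univ, Fintype.card_fin, nsmul_eq_mul]; ring

/-- the limit of the derivatives is the derivative of the limit. -/
lemma deriv_lim [l.NeBot] {P : Fin n → (Fin n → ℝ) → ℝ} (hL : 0 ≤ L)
    (hd : ∀ k, Differentiable ℝ (F k)) (h : ∀ i, EL l L fun k => pd i (F k))
    (hlim : ∀ x, Tendsto (fun k => F k x) l (𝓝 (U x)))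
    (hP : ∀ i x, Tendsto (fun k => pd i (F k) x) l (𝓝 (P i x))) :
    Differentiable ℝ U ∧ ∀ i, pd i U = P i := by
  have hfd : ∀ x, HasFDerivAt U (∑ i, P i x •
      (ContinuousLinearMap.proj (R := ℝ) (φ := fun _ : Fin n => ℝ) i)) x := by
    intro x
    rw [hasFDerivAt_iff_isLittleO_nhds_zero]
    refine Asymptotics.IsBigO.trans_isLittleO (Asymptotics.IsBigO.of_bound (n * L) ?_)
      (Asymptotics.isLittleO_norm_pow_id (E' := Fin n → ℝ) one_lt_two)
    filter_upwards [Metric.closedBall_mem_nhds (0 : Fin n → ℝ) one_pos] with v hv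
    have hv1 : ‖v‖ ≤ 1 := by simpa using hv
    have e : (∑ i, P i x • (ContinuousLinearMap.proj (R := ℝ) (φ := fun _ : Fin n => ℝ) i)) v
        = ∑ i, v i * P i x := by
      simp only [sum_apply, smul_apply, ContinuousLinearMap.proj_apply, smul_eq_mul, mul_comm]
    have hl : Tendsto (fun k => |F k (x + v) - F k x - ∑ i, v i * pd i (F k) x|) l
        (𝓝 |U (x + v) - U x - ∑ i, v i * P i x|) :=
      (((hlim (x + v)).sub (hlim x)).sub
        (tendsto_finsetSum _ fun i _ => (hP i x).const_mul (v i))).abs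
    have h2 : ∀ᶠ k in l, ∀ i, ∀ y v, ‖y‖ ≤ ‖x‖ → ‖v‖ ≤ 1 →
        |pd i (F k) (y + v) - pd i (F k) y| ≤ L * ‖v‖ := eventually_all.mpr fun i => h i ‖x‖
    have h3 := le_of_tendsto hl (h2.mono fun k hk =>
      taylor_loc (hd k) hL (fun v i hv => hk i x v le_rfl hv) hv1)
    rw [e]
    simpa using h3
  refine ⟨fun x => (hfd x).differentiableAt, fun i => funext fun x => ?_⟩
  unfold pd
  rw [(hfd x).fderiv]
  simp only [sum_apply, smul_apply, ContinuousLinearMap.proj_apply, Pi.single_apply, smul_eq_mul,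
    mul_ite, mul_one, mul_zero, Finset.sum_ite_eq', Finset.mem_univ, ↓reduceIte]

lemma exists_lim (𝒰 : Ultrafilter ι) {M : ℝ} (hb : ∀ x, ∀ᶠ k in 𝒰, |F k x| ≤ M) :
    ∃ U : (Fin n → ℝ) → ℝ, ∀ x, Tendsto (fun k => F k x) 𝒰 (𝓝 (U x)) := by
  have : ∀ x, ∃ y, Tendsto (fun k => F k x) 𝒰 (𝓝 y) := by
    intro x
    obtain ⟨y, -, hy⟩ := (isCompact_Icc (a := -M) (b := M)).ultrafilter_le_nhds
      (𝒰.map fun k => F k x) (by
        rw [le_principal_iff]
        exact (hb x).mono fun k hk => abs_le.mp hk)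
    exact ⟨y, hy⟩
  choose U hU using this
  exact ⟨U, hU⟩

end lim

/-- closeness up to the second order in the box of size `ρ`. -/
def CL (w U : (Fin n → ℝ) → ℝ) (ρ ε : ℝ) : Prop := ∀ y, ‖y‖ ≤ ρ → |w y - U y| ≤ ε ∧
  (∀ i, |pd i w y - pd i U y| ≤ ε) ∧ ∀ i j, |pd i (pd j w) y - pd i (pd j U) y| ≤ ε

/-- the ultrafilter along which the limits are taken. -/
noncomputable def uf : Ultrafilter ℕ := hyperfilter ℕ

lemma uf_ev (a : ℝ) : ∀ᶠ k : ℕ in uf, a ≤ k := by
  have h : (uf : Filter ℕ) ≤ atTop := by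
    rw [← Nat.cofinite_eq_atTop]; exact hyperfilter_le_cofinite
  exact h (tendsto_natCast_atTop_atTop.eventually_ge_atTop a)

/-- compactness of solutions in growing boxes. -/
theorem compact {F : ℕ → (Fin n → ℝ) → ℝ} (hF : ∀ k : ℕ, LSol k (F k)) :
    ∃ U : (Fin n → ℝ) → ℝ, Sol U ∧ ∀ ρ ε : ℝ, 0 < ε → ∀ᶠ k in uf, CL (F k) U ρ ε := by
  have hd : ∀ k, Differentiable ℝ (F k) := fun k => (hF k).c2.differentiable (by norm_num)
  have hd1 : ∀ j k, Differentiable ℝ (pd j (F k)) := fun j k =>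
    (contDiff_pd_one (hF k).c2).differentiable (by norm_num)
  have b0 : ∀ x, ∀ᶠ k in uf, |F k x| ≤ 2 := fun x => (uf_ev _).mono fun k hk => (hF k).bd hk
  obtain ⟨U, hU⟩ := exists_lim uf b0
  have h1 : ∀ i, ∃ P : (Fin n → ℝ) → ℝ, ∀ x, Tendsto (fun k => pd i (F k) x) uf (𝓝 (P x)) :=
    fun i => exists_lim uf fun x => (uf_ev _).mono fun k hk => (hF k).pd_le hk i
  choose P hP using h1
  have h2 : ∀ i j, ∃ Q : (Fin n → ℝ) → ℝ,
      ∀ x, Tendsto (fun k => pd i (pd j (F k)) x) uf (𝓝 (Q x)) :=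
    fun i j => exists_lim uf fun x => (uf_ev _).mono fun k hk => (hF k).pd2_le hk i j
  choose Q hQ using h2
  have e0 : EL uf (n * ka n) F := fun ρ => (uf_ev (ρ + (n + 5))).mono fun k hk x v hx hv =>
    (hF k).diff_le (by linarith) hv
  have e1 : ∀ i, EL uf (kb n) fun k => pd i (F k) := fun i ρ =>
    (uf_ev (ρ + (n + 6))).mono fun k hk x v hx hv => (hF k).pd_diff_le (by linarith) hv i
  have e2 : ∀ i j, EL uf (kc n) fun k => pd i (pd j (F k)) := fun i j ρ =>
    (uf_ev (ρ + (n + 8))).mono fun k hk x v hx hv => (hF k).pd2_diff_le (by linarith) hv i j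
  obtain ⟨dU, p1⟩ := deriv_lim kb_pos hd e1 hU hP
  have p2 : ∀ j, Differentiable ℝ (P j) ∧ ∀ i, pd i (P j) = Q i j := fun j =>
    deriv_lim kc_pos (hd1 j) (fun i => e2 i j) (hP j) fun i => hQ i j
  have p3 : ∀ i j, pd i (pd j U) = Q i j := fun i j => by rw [p1, (p2 j).2]
  refine ⟨U, sol_of_eq (contDiff_two_of_pd dU (fun i => by rw [p1]; exact (p2 i).1)
    fun i j => ?_) fun x => ?_, fun ρ ε hε => ?_⟩
  · rw [p3]
    exact cont_of_lip fun x v hv => (e2 i j).lip (hQ i j) x hv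
  · simp_rw [p3]
    have t1 : Tendsto (fun k => ∑ i, pd i (pd i (F k)) x) uf (𝓝 (∑ i, Q i i x)) :=
      tendsto_finsetSum _ fun i _ => hQ i i x
    have t2 : Tendsto (fun k => F k x ^ 3 - F k x) uf (𝓝 (U x ^ 3 - U x)) :=
      ((hU x).pow 3).sub (hU x)
    exact tendsto_nhds_unique_of_eventuallyEq t1 t2
      ((uf_ev ‖x‖).mono fun k hk => (hF k).eq x hk)
  · have a0 := e0.unif (mul_nonneg (Nat.cast_nonneg n) ka_pos) hU ρ hε
    have a1 := eventually_all.mpr fun i => (e1 i).unif kb_pos (hP i) ρ hε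
    have a2 := eventually_all.mpr fun i => eventually_all.mpr fun j =>
      (e2 i j).unif kc_pos (hQ i j) ρ hε
    filter_upwards [a0, a1, a2] with k k0 k1 k2 y hy
    refine ⟨k0 y hy, fun i => ?_, fun i j => ?_⟩
    · rw [p1]; exact k1 i y hy
    · rw [p3]; exact k2 i j y hy

end Vale.Agent.N134
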