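import Vale.Agent.N134.Est

/-! N134: the stability inequality from a positive solution near the support of the test
function, its limits, and cylinders. -/

set_option linter.all false

open Filter Topology MeasureTheory

namespace Vale.Agent.N134

open Vale.Agent.P134 Vale.Agent.P134.SM

variable {n : ℕ} {φ c η : (Fin n → ℝ) → ℝ}

lemma int_gs (hη : ContDiff ℝ 1 η) (hs : HasCompactSupport η) : Integrable (gs η) := by
  unfold gs
  exact integrable_finsetSum _ fun j _ => ((continuous_pd hη).pow 2).integrable_of_hasCompactSupport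
    (hcs_sq (hasCompactSupport_pd hs))

lemma int_csq (hc : Continuous c) (hη : ContDiff ℝ 1 η) (hs : HasCompactSupport η) :
    Integrable fun x => c x * η x ^ 2 :=
  (hc.mul (hη.continuous.pow 2)).integrable_of_hasCompactSupport (hcs_sq hs).mul_left

lemma tsupport_sq (η : (Fin n → ℝ) → ℝ) : tsupport (fun x => η x ^ 2) ⊆ tsupport η := by
  refine closure_mono fun x hx h => hx ?_
  simp [h]

/-- a positive solution of the linear equation near the support gives the inequality. -/
lemma picone (hφ : ContDiff ℝ 2 φ) (hc : Continuous c) (hη : ContDiff ℝ 1 η)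
    (hs : HasCompactSupport η) (hpos : ∀ x ∈ tsupport η, 0 < φ x)
    (he : ∀ x ∈ tsupport η, ∑ i, pd i (pd i φ) x = c x * φ x) :
    0 ≤ ∫ x, (gs η x + c x * η x ^ 2) := by
  obtain ⟨X, hX⟩ : ∃ X : Fin n → (Fin n → ℝ) → ℝ, X = fun i x => pd i φ x / φ x := ⟨_, rfl⟩
  have c1 : ContDiff ℝ 1 φ := hφ.of_le (by norm_num)
  have hXc : ∀ i, ∀ x ∈ tsupport η, ContDiffAt ℝ 1 (X i) x := fun i x hx => by
    rw [hX]
    exact (contDiff_pd_one hφ).contDiffAt.div c1.contDiffAt (hpos x hx).ne'
  have hη2 : ContDiff ℝ 1 fun x => η x ^ 2 := hη.pow 2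
  have hs2 : HasCompactSupport fun x => η x ^ 2 := hcs_sq hs
  have key := int_div_loc hη2 hs2 (X := X) fun i x hx => hXc i x (tsupport_sq η hx)
  have i1 : Integrable fun x => η x ^ 2 * ∑ i, pd i (X i) x := by
    refine integrable_mul_of_loc hη2.continuous hs2 fun x hx => ?_
    refine tendsto_finsetSum _ fun i _ => ?_
    have h := cda_pd (m := 0) (i := i) (x := x) (f := X i)
      (by simpa using hXc i x (tsupport_sq η hx))
    have h7 : ContDiffAt ℝ 0 (pd i (X i)) x := by simpa using h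
    exact h7.continuousAt
  have i2 : Integrable fun x => ∑ i, pd i (fun x => η x ^ 2) x * X i x :=
    integrable_finsetSum _ fun i _ => integrable_mul_of_loc (continuous_pd hη2)
      (hasCompactSupport_pd hs2) fun x hx =>
        (hXc i x (tsupport_sq η (tsupport_pd_subset _ i hx))).continuousAt
  have e0 : ∫ x, (η x ^ 2 * ∑ i, pd i (X i) x + ∑ i, pd i (fun x => η x ^ 2) x * X i x) = 0 := by
    rw [integral_add i1 i2, key]; ring
  rw [← e0]
  refine integral_mono (i1.add i2) ((int_gs hη hs).add (int_csq hc hη hs)) fun x => ?_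
  show η x ^ 2 * ∑ i, pd i (X i) x + ∑ i, pd i (fun x => η x ^ 2) x * X i x
    ≤ gs η x + c x * η x ^ 2
  have dη : DifferentiableAt ℝ η x := hη.differentiable (by norm_num) x
  simp_rw [pd_sq dη]
  by_cases hx : x ∈ tsupport η
  · have h0 := (hpos x hx).ne'
    have h1 : ∀ i, pd i (X i) x = pd i (pd i φ) x / φ x - X i x ^ 2 := by
      intro i
      rw [hX]
      simp only
      rw [pd_div ((contDiff_pd_one hφ).differentiable (by norm_num) x)
        (c1.differentiable (by norm_num) x) h0]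
      field_simp
    have h2 : ∑ i, pd i (X i) x = c x - ∑ i, X i x ^ 2 := by
      rw [Finset.sum_congr rfl fun i _ => h1 i, Finset.sum_sub_distrib, ← Finset.sum_div, he x hx,
        mul_div_assoc, div_self h0, mul_one]
    have h3 : 0 ≤ ∑ i, (pd i η x - η x * X i x) ^ 2 := Finset.sum_nonneg fun i _ => sq_nonneg _
    have h4 : ∑ i, (pd i η x - η x * X i x) ^ 2
        = gs η x - ∑ i, 2 * η x * pd i η x * X i x + η x ^ 2 * ∑ i, X i x ^ 2 := by
      unfold gs
      rw [Finset.mul_sum, ← Finset.sum_sub_distrib, ← Finset.sum_add_distrib]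
      exact Finset.sum_congr rfl fun i _ => by ring
    rw [h2]
    linarith
  · rw [image_eq_zero_of_notMem_tsupport hx]
    have : 0 ≤ gs η x := Finset.sum_nonneg fun i _ => sq_nonneg _
    simpa using this

/-- the inequality passes to uniform limits of the potentials. -/
lemma stab_lim {ι : Type*} {l : Filter ι} [l.NeBot] {C : ι → (Fin n → ℝ) → ℝ}
    (hC : ∀ k, Continuous (C k)) (hc : Continuous c) (hη : ContDiff ℝ 1 η)
    (hs : HasCompactSupport η)
    (hconv : ∀ ε : ℝ, 0 < ε → ∀ᶠ k in l, ∀ x ∈ tsupport η, C k x ≤ c x + ε)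
    (hpos : ∀ᶠ k in l, 0 ≤ ∫ x, (gs η x + C k x * η x ^ 2)) :
    0 ≤ ∫ x, (gs η x + c x * η x ^ 2) := by
  have iM : Integrable fun x => η x ^ 2 := by
    simpa using int_csq (c := fun _ => 1) continuous_const hη hs
  have hM : 0 ≤ ∫ x, η x ^ 2 := integral_nonneg fun x => sq_nonneg _
  have key : ∀ ε : ℝ, 0 < ε → 0 ≤ (∫ x, (gs η x + c x * η x ^ 2)) + ε * ∫ x, η x ^ 2 := by
    intro ε hε
    obtain ⟨k, h1, h2⟩ := ((hconv ε hε).and hpos).exists
    have i1 : Integrable fun x => gs η x + c x * η x ^ 2 := (int_gs hη hs).add (int_csq hc hη hs)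
    rw [← integral_const_mul, ← integral_add i1 (iM.const_mul ε)]
    refine h2.trans (integral_mono ((int_gs hη hs).add (int_csq (hC k) hη hs))
      (i1.add (iM.const_mul ε)) fun x => ?_)
    show gs η x + C k x * η x ^ 2 ≤ gs η x + c x * η x ^ 2 + ε * η x ^ 2
    by_cases hx : x ∈ tsupport η
    · nlinarith [mul_le_mul_of_nonneg_right (h1 x hx) (sq_nonneg (η x))]
    · rw [image_eq_zero_of_notMem_tsupport hx]; simp
  by_contra hneg
  push Not at hneg
  obtain ⟨A, hA⟩ : ∃ A, A = ∫ x, (gs η x + c x * η x ^ 2) := ⟨_, rfl⟩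
  obtain ⟨B, hB⟩ : ∃ B, B = ∫ x, η x ^ 2 := ⟨_, rfl⟩
  rw [← hA, ← hB] at key
  rw [← hA] at hneg
  rw [← hB] at hM
  have h1 := key (-A / (2 * (B + 1))) (div_pos (by linarith) (by linarith))
  have h2 : -A / (2 * (B + 1)) * B ≤ -A / 2 := by
    rw [div_mul_eq_mul_div, div_le_div_iff₀ (by linarith) (by norm_num)]
    nlinarith
  linarith

lemma supp_bd (hs : HasCompactSupport η) : ∃ ρ : ℝ, ∀ x ∈ tsupport η, ‖x‖ ≤ ρ :=
  hs.isBounded.exists_norm_le

/-! ### Cylinders -/

/-- the projection to the first `n` coordinates. -/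
noncomputable def prj (n : ℕ) : (Fin (n + 1) → ℝ) →L[ℝ] (Fin n → ℝ) :=
  ContinuousLinearMap.pi fun i => ContinuousLinearMap.proj i.castSucc

lemma prj_apply (x : Fin (n + 1) → ℝ) (i : Fin n) : prj n x i = x i.castSucc := rfl

lemma prj_cast (i : Fin n) : prj n (Pi.single i.castSucc 1) = Pi.single i 1 := by
  funext j
  rw [prj_apply]
  simp [Pi.single_apply]

lemma prj_last : prj n (Pi.single (Fin.last n) 1) = 0 := by
  funext j
  rw [prj_apply]
  simp [Pi.single_apply, (Fin.castSucc_lt_last j).ne]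

lemma pd_prj {f : (Fin n → ℝ) → ℝ} (hf : Differentiable ℝ f) (j : Fin (n + 1))
    (x : Fin (n + 1) → ℝ) :
    pd j (fun y => f (prj n y)) x = fderiv ℝ f (prj n x) (prj n (Pi.single j 1)) := by
  have h1 : fderiv ℝ (fun y => f (prj n y)) x = (fderiv ℝ f (prj n x)).comp (prj n) :=
    ((hf (prj n x)).hasFDerivAt.comp x (prj n).hasFDerivAt).fderiv
  unfold pd
  rw [h1, ContinuousLinearMap.comp_apply]

lemma pd_prj_cast {f : (Fin n → ℝ) → ℝ} (hf : Differentiable ℝ f) (i : Fin n) :
    pd i.castSucc (fun y => f (prj n y)) = fun x => pd i f (prj n x) := by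
  funext x
  rw [pd_prj hf, prj_cast]; rfl

lemma pd_prj_last {f : (Fin n → ℝ) → ℝ} (hf : Differentiable ℝ f) :
    pd (Fin.last n) (fun y => f (prj n y)) = fun _ => 0 := by
  funext x
  rw [pd_prj hf, prj_last, map_zero]

lemma sol_prj {u : (Fin n → ℝ) → ℝ} (hu : Sol u) : Sol fun y => u (prj n y) where
  c2 := hu.c2.comp (prj n).contDiff
  bd := fun y => hu.bd _
  eq := fun y => by
    have du : Differentiable ℝ u := hu.c2.differentiable (by norm_num)
    rw [Fin.sum_univ_castSucc, pd_prj_last du, pd_const, add_zero, ← hu.eq]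
    refine Finset.sum_congr rfl fun i _ => ?_
    rw [pd_prj_cast du, pd_prj_cast ((contDiff_pd_one hu.c2).differentiable (by norm_num))]

end Vale.Agent.N134
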