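import Vale.Agent.N134.Defs
import Vale.Agent.N134.Pic
import Vale.Agent.P134.H765.Struct
import Vale.Agent.P134.H765.Final4

/-! N134: from Euclidean space to coordinates and back. -/

set_option linter.all false

open Filter Topology MeasureTheory Metric
open scoped InnerProductSpace Laplacian

namespace Vale.Agent.N134

open Vale.Agent.P134 Vale.Agent.P134.SM

variable {n : ℕ}

abbrev OB (n : ℕ) := OrthonormalBasis (Fin n) ℝ (E n)

variable (b : OB n) (p : E n) {u w η : E n → ℝ}

/-- the coordinates of a point. -/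
noncomputable def inv (x : E n) : Fin n → ℝ := fun i => ⟪b i, x - p⟫_ℝ

lemma inv_cd {k : WithTop ℕ∞} : ContDiff ℝ k (inv b p) :=
  contDiff_pi.mpr fun i => contDiff_const.inner ℝ (contDiff_id.sub contDiff_const)

lemma inv_crd (y : Fin n → ℝ) : inv b p (p + coordMap b y) = y := by
  funext i
  unfold inv
  rw [add_sub_cancel_left, coordMap_apply, inner_sum]
  simp_rw [inner_smul_right, b.inner_eq_ite]
  simp

/-- the coordinates as a homeomorphism. -/
noncomputable def chart : (Fin n → ℝ) ≃ₜ E n where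
  toFun y := p + coordMap b y
  invFun := inv b p
  left_inv := inv_crd b p
  right_inv := coordMap_repr b p
  continuous_toFun := continuous_const.add (coordMap b).continuous
  continuous_invFun := (inv_cd b p (k := 0)).continuous

lemma norm_crd (y : Fin n → ℝ) : ‖coordMap b y‖ ≤ n * ‖y‖ := by
  rw [coordMap_apply]
  calc ‖∑ i, y i • b i‖ ≤ ∑ i, ‖y i • b i‖ := norm_sum_le _ _
    _ ≤ ∑ _i : Fin n, ‖y‖ := Finset.sum_le_sum fun i _ => by
        rw [norm_smul, b.orthonormal.1 i, mul_one]; exact norm_le_pi_norm y i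
    _ = n * ‖y‖ := by simp

lemma norm_inv (x : E n) : ‖inv b p x‖ ≤ ‖x - p‖ := by
  refine (pi_norm_le_iff_of_nonneg (norm_nonneg _)).mpr fun i => ?_
  have := norm_inner_le_norm (𝕜 := ℝ) (b i) (x - p)
  rwa [b.orthonormal.1 i, one_mul] at this

lemma mem_crd {r R : ℝ} (h : n * r < R) {y : Fin n → ℝ} (hy : ‖y‖ ≤ r) :
    p + coordMap b y ∈ ball p R := by
  rw [mem_ball, dist_eq_norm, add_sub_cancel_left]
  exact ((norm_crd b y).trans (mul_le_mul_of_nonneg_left hy (Nat.cast_nonneg n))).trans_lt h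

lemma cd_crd {k : WithTop ℕ∞} (hw : ContDiff ℝ k w) :
    ContDiff ℝ k fun y => w (p + coordMap b y) :=
  hw.comp (contDiff_const.add (coordMap b).contDiff)

lemma pd2_crd (hw : ContDiff ℝ 2 w) (i j : Fin n) (y : Fin n → ℝ) :
    pd i (pd j fun y => w (p + coordMap b y)) y
      = iteratedFDeriv ℝ 2 w (p + coordMap b y) ![b i, b j] := by
  have du : Differentiable ℝ w := hw.differentiable (by norm_num)
  have dfu : Differentiable ℝ (fderiv ℝ w) :=
    (hw.fderiv_right (m := 1) (by norm_num)).differentiable (by norm_num)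
  have h1 : pd j (fun y => w (p + coordMap b y))
      = fun y => (fun x => fderiv ℝ w x (b j)) (p + coordMap b y) :=
    funext fun y => pd_coord_comp du b p j y
  have hd : Differentiable ℝ (fun x => fderiv ℝ w x (b j)) := fun x =>
    (dfu x).clm_apply (differentiableAt_const _)
  rw [h1, pd_coord_comp hd b p i y, iteratedFDeriv_two_apply]
  have h3 : HasFDerivAt (fun x => fderiv ℝ w x (b j))
      ((ContinuousLinearMap.apply ℝ ℝ (b j)).comp (fderiv ℝ (fderiv ℝ w) (p + coordMap b y)))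
      (p + coordMap b y) :=
    (ContinuousLinearMap.apply ℝ ℝ (b j)).hasFDerivAt.comp _ (dfu _).hasFDerivAt
  rw [h3.fderiv]
  simp only [ContinuousLinearMap.comp_apply, ContinuousLinearMap.apply_apply, Fin.isValue,
    Matrix.cons_val_zero, Matrix.cons_val_one, Matrix.cons_val_fin_one]

lemma lap_crd (hw : ContDiff ℝ 2 w) (y : Fin n → ℝ) :
    ∑ i, pd i (pd i fun y => w (p + coordMap b y)) y = Δ w (p + coordMap b y) := by
  simp_rw [pd2_crd b p hw]
  rw [InnerProductSpace.laplacian_eq_iteratedFDeriv_orthonormalBasis w b]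

lemma norm_le_basis {k : ℕ} (T : ContinuousMultilinearMap ℝ (fun _ : Fin k => E n) ℝ) {ε : ℝ}
    (hε : 0 ≤ ε) (h : ∀ f : Fin k → Fin n, |T fun a => b (f a)| ≤ ε) : ‖T‖ ≤ n ^ k * ε := by
  refine T.opNorm_le_bound (by positivity) fun v => ?_
  have e : T v = ∑ f : Fin k → Fin n, (∏ a, ⟪b (f a), v a⟫_ℝ) * T fun a => b (f a) := by
    conv_lhs => rw [show v = fun a => ∑ i, ⟪b i, v a⟫_ℝ • b i from
      funext fun a => (b.sum_repr' (v a)).symm]
    rw [T.map_sum]
    refine Finset.sum_congr rfl fun f _ => ?_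
    rw [T.map_smul_univ, smul_eq_mul]
  rw [e]
  calc ‖∑ f : Fin k → Fin n, (∏ a, ⟪b (f a), v a⟫_ℝ) * T fun a => b (f a)‖
      ≤ ∑ f : Fin k → Fin n, ‖(∏ a, ⟪b (f a), v a⟫_ℝ) * T fun a => b (f a)‖ := norm_sum_le _ _
    _ ≤ ∑ _f : Fin k → Fin n, (∏ a, ‖v a‖) * ε := Finset.sum_le_sum fun f _ => by
        rw [norm_mul, norm_prod]
        refine mul_le_mul (Finset.prod_le_prod (fun a _ => norm_nonneg _) fun a _ => ?_) (h f)
          (norm_nonneg _) (Finset.prod_nonneg fun a _ => norm_nonneg _)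
        have := norm_inner_le_norm (𝕜 := ℝ) (b (f a)) (v a)
        rwa [b.orthonormal.1, one_mul] at this
    _ = n ^ k * ε * ∏ a, ‖v a‖ := by simp; ring

/-- solutions without deficit are flat. -/
lemma flat_inv {U : (Fin n → ℝ) → ℝ} (hU : Sol U) (hD : ∀ y, defi U y = 0) :
    Flat fun x => U (inv b p x) := by
  rcases H765.rigid_form hU hD with h | h | ⟨ν, hν, -, c, hc⟩
  · exact Or.inl fun x => h _
  · exact Or.inr (Or.inl fun x => h _)
  · refine Or.inr (Or.inr ⟨∑ i, ν i • b i, ⟪∑ i, ν i • b i, p⟫_ℝ - c, ?_, fun x => ?_⟩)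
    · have h1 : ‖∑ i, ν i • b i‖ ^ 2 = 1 := by
        rw [← real_inner_self_eq_norm_sq, sum_inner]
        simp_rw [inner_sum, inner_smul_left, inner_smul_right, b.inner_eq_ite]
        simp only [mul_ite, mul_one, mul_zero, Finset.sum_ite_eq, Finset.mem_univ, if_true,
          conj_trivial]
        rw [← hν]
        refine Finset.sum_congr rfl fun i _ => by ring
      have h2 : 0 ≤ ‖∑ i, ν i • b i‖ := norm_nonneg _
      nlinarith
    · show U (inv b p x) = _
      rw [hc, H765.gp_eq_tanh]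
      congr 2
      have e : ∑ i, ν i * inv b p x i = ⟪∑ i, ν i • b i, x - p⟫_ℝ := by
        rw [sum_inner]
        refine Finset.sum_congr rfl fun i _ => ?_
        rw [inner_smul_left]
        rfl
      rw [e, inner_sub_right]
      ring

/-- closeness in coordinates gives closeness in Euclidean space. -/
lemma near_of_cl (hw : ContDiff ℝ 2 w) {ρ ε : ℝ} (hε : 0 ≤ ε)
    (huw : ∀ x ∈ ball p ρ, w =ᶠ[𝓝 x] u) {U : (Fin n → ℝ) → ℝ} (hU : Sol U)
    (hD : ∀ y, defi U y = 0) (h : CL (fun y => w (p + coordMap b y)) U ρ (ε / (n + 1) ^ 2)) :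
    NearFlat u (ball p ρ) ε := by
  obtain ⟨v, hv⟩ : ∃ v : E n → ℝ, v = fun x => U (inv b p x) := ⟨_, rfl⟩
  have cv : ContDiff ℝ 2 v := by rw [hv]; exact hU.c2.comp (inv_cd b p)
  have cg : ContDiff ℝ 2 (w - v) := hw.sub cv
  have cW := cd_crd b p hw
  have eg : (fun y => (w - v) (p + coordMap b y)) = fun y => w (p + coordMap b y) - U y := by
    funext y
    rw [hv, Pi.sub_apply, inv_crd]
  have e1 : ∀ j, pd j (fun y => w (p + coordMap b y) - U y)
      = fun y => pd j (fun y => w (p + coordMap b y)) y - pd j U y := fun j => funext fun y =>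
    pd_sub (cW.differentiable (by norm_num) y) (hU.c2.differentiable (by norm_num) y)
  refine ⟨v, by rw [hv]; exact flat_inv b p hU hD, fun x hx k hk => ?_⟩
  have h1 : u - v =ᶠ[𝓝 x] w - v := (huw x hx).symm.sub EventuallyEq.rfl
  rw [(h1.iteratedFDeriv ℝ k).eq_of_nhds]
  have hy : ‖inv b p x‖ ≤ ρ := (norm_inv b p x).trans (by
    rw [← dist_eq_norm]; exact (mem_ball.mp hx).le)
  obtain ⟨h0, h1, h2⟩ := h _ hy
  have hx' : x = p + coordMap b (inv b p x) := (coordMap_repr b p x).symm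
  have hn : (0:ℝ) ≤ n := Nat.cast_nonneg n
  refine (norm_le_basis b _ (ε := ε / (n + 1) ^ 2) (by positivity) fun f => ?_).trans ?_
  · rw [hx']
    interval_cases k
    · rw [iteratedFDeriv_zero_apply, congrFun eg]
      exact h0
    · rw [iteratedFDeriv_one_apply, ← pd_coord_comp (cg.differentiable (by norm_num)), eg, e1]
      exact h1 _
    · have e2 : (fun a => b (f a)) = ![b (f 0), b (f 1)] := by
        funext a; fin_cases a <;> rfl
      rw [e2, ← pd2_crd b p cg, eg, e1, pd_sub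
        ((contDiff_pd_one cW).differentiable (by norm_num) _)
        ((contDiff_pd_one hU.c2).differentiable (by norm_num) _)]
      exact h2 _ _
  · rw [mul_div_assoc', div_le_iff₀ (by positivity), mul_comm]
    refine mul_le_mul_of_nonneg_left ?_ hε
    calc (n:ℝ) ^ k ≤ (n + 1) ^ k := pow_le_pow_left₀ hn (by linarith) k
      _ ≤ (n + 1) ^ 2 := pow_le_pow_right₀ (by linarith) hk

/-- extension of a local solution to a function of class `C²` on the whole space. -/
lemma exists_ext {R : ℝ} (hR : 0 < R) (hu : ContDiffOn ℝ 2 u (ball p (R + 1))) :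
    ∃ w : E n → ℝ, ContDiff ℝ 2 w ∧ ∀ x ∈ ball p R, w =ᶠ[𝓝 x] u := by
  let χ : ContDiffBump p := ⟨R, R + 1 / 2, hR, by linarith⟩
  refine ⟨fun x => χ x * u x, ?_, fun x hx => ?_⟩
  · rw [contDiff_iff_contDiffAt]
    intro x
    by_cases hx : x ∈ tsupport χ
    · refine χ.contDiff.contDiffAt.mul (hu.contDiffAt (isOpen_ball.mem_nhds ?_))
      rw [χ.tsupport_eq] at hx
      exact closedBall_subset_ball (show R + 1 / 2 < R + 1 by linarith) hx
    · have : (fun x => χ x * u x) =ᶠ[𝓝 x] fun _ => 0 := by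
        filter_upwards [(isClosed_tsupport χ).isOpen_compl.mem_nhds hx] with z hz
        rw [image_eq_zero_of_notMem_tsupport hz, zero_mul]
      exact contDiffAt_const.congr_of_eventuallyEq this
  · filter_upwards [isOpen_ball.mem_nhds hx] with z hz
    rw [χ.one_of_mem_closedBall (ball_subset_closedBall hz), one_mul]

lemma lsol_crd {r R : ℝ} (h : n * r < R) (hw : ContDiff ℝ 2 w)
    (huw : ∀ x ∈ ball p R, w =ᶠ[𝓝 x] u) (he : ∀ x ∈ ball p R, Δ u x = u x ^ 3 - u x) :
    LSol r fun y => w (p + coordMap b y) := by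
  refine ⟨cd_crd b p hw, fun y hy => ?_⟩
  have hm := mem_crd b p h hy
  rw [lap_crd b p hw, (InnerProductSpace.laplacian_congr_nhds (huw _ hm)).eq_of_nhds, he _ hm,
    (huw _ hm).eq_of_nhds]

lemma norm_sq_basis (L : E n →L[ℝ] ℝ) : ‖L‖ ^ 2 = ∑ i, L (b i) ^ 2 := by
  obtain ⟨v, hv⟩ : ∃ v, v = (InnerProductSpace.toDual ℝ (E n)).symm L := ⟨_, rfl⟩
  have h1 : ‖L‖ = ‖v‖ := by rw [hv, LinearIsometryEquiv.norm_map]
  have h2 : ∀ x, L x = ⟪v, x⟫_ℝ := fun x => by rw [hv, InnerProductSpace.toDual_symm_apply]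
  rw [h1, ← b.sum_sq_norm_inner_right v]
  refine Finset.sum_congr rfl fun i _ => ?_
  rw [h2, Real.norm_eq_abs, sq_abs, real_inner_comm]

lemma mp_chart : MeasurePreserving (chart b p) := by
  have h := (measurePreserving_add_left (volume : Measure (E n)) p).comp
    (b.measurePreserving_repr_symm.comp (PiLp.volume_preserving_toLp (Fin n)))
  have e : (chart b p : (Fin n → ℝ) → E n)
      = (fun x => p + x) ∘ (b.repr.symm ∘ WithLp.toLp 2) := by
    funext y
    show p + coordMap b y = p + b.repr.symm (WithLp.toLp 2 y)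
    rw [coordMap_apply, ← b.sum_repr_symm]
  rw [e]
  exact h

/-- the second variation in coordinates. -/
lemma quad_crd (hη : Differentiable ℝ η) (V : E n → ℝ) :
    ∫ x, (‖fderiv ℝ η x‖ ^ 2 + V x * η x ^ 2)
      = ∫ y, (gs (fun y => η (p + coordMap b y)) y
        + V (p + coordMap b y) * η (p + coordMap b y) ^ 2) := by
  rw [← (mp_chart b p).integral_comp (chart b p).measurableEmbedding]
  refine integral_congr_ae (Eventually.of_forall fun y => ?_)
  show ‖fderiv ℝ η (p + coordMap b y)‖ ^ 2 + _ = gs _ y + _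
  unfold gs
  simp_rw [pd_coord_comp hη b p]
  rw [norm_sq_basis b]
  rfl

/-- stability in a ball gives stability in a box. -/
lemma stab_crd {r R : ℝ} (h : n * r < R) (huw : ∀ x ∈ ball p R, w =ᶠ[𝓝 x] u)
    (hs : Stable u (ball p R)) {ξ : (Fin n → ℝ) → ℝ} (hξ : ContDiff ℝ (⊤ : ℕ∞) ξ)
    (hc : HasCompactSupport ξ) (hr : ∀ y ∈ tsupport ξ, ‖y‖ ≤ r) :
    0 ≤ ∫ y, (gs ξ y + (3 * w (p + coordMap b y) ^ 2 - 1) * ξ y ^ 2) := by
  have c1 : ContDiff ℝ (⊤ : ℕ∞) fun x => ξ (inv b p x) := hξ.comp (inv_cd b p)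
  have h1 := hs _ ⟨c1, hc.comp_homeomorph (chart b p).symm, fun x hx => by
    have h2 := tsupport_comp_subset_preimage ξ (inv_cd b p (k := 0)).continuous hx
    have h3 := mem_crd b p h (hr _ h2)
    rwa [show p + coordMap b (inv b p x) = x from coordMap_repr b p x] at h3⟩
  unfold Q at h1
  rw [quad_crd b p (c1.differentiable (by simp))] at h1
  simp only [inv_crd] at h1
  refine h1.trans_eq (integral_congr_ae (Eventually.of_forall fun y => ?_))
  show gs ξ y + _ = gs ξ y + _
  by_cases hy : y ∈ tsupport ξ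
  · rw [(huw _ (mem_crd b p h (hr y hy))).eq_of_nhds]
  · rw [image_eq_zero_of_notMem_tsupport hy]; simp

end Vale.Agent.N134
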