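import Vale.Agent.P134.H765.SMP
import Vale.Agent.P134.SM.Ibp

/-! N134: interior estimates for solutions of the Allen-Cahn equation in a box: the gradient
estimate by reflection, and the universal bound of Keller-Osserman type. -/

set_option linter.all false

open Filter Topology

namespace Vale.Agent.N134

open Vale.Agent.P134

variable {n : ℕ}

lemma norm_reflq (q : Fin n) {y : Fin n → ℝ} (hy : ‖y‖ ≤ 1) : ‖reflq q y‖ ≤ 1 := by
  refine (pi_norm_le_iff_of_nonneg zero_le_one).mpr fun j => ?_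
  have h := (norm_le_pi_norm y j).trans hy
  rw [reflq_apply]
  by_cases hj : j = q
  · subst hj
    have e : (y - (2 * y j) • Pi.single j 1 : Fin n → ℝ) j = - y j := by simp; ring
    rw [e, norm_neg]; exact h
  · have e : (y - (2 * y q) • Pi.single q 1 : Fin n → ℝ) j = y j := by simp [hj]
    rw [e]; exact h

lemma grad_aux {w : (Fin n → ℝ) → ℝ} (hw : ContDiff ℝ 2 w) {M N N' : ℝ} {x : Fin n → ℝ}
    (hM : ∀ y, ‖y‖ ≤ 1 → |w (x + y)| ≤ M)
    (hN : ∀ y, ‖y‖ ≤ 1 → |∑ i, pd i (pd i w) (x + y)| ≤ N) (hN' : N < N')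
    (q : Fin n) : pd q w x ≤ n * M + N' / 2 := by
  have hM0 : 0 ≤ M := (abs_nonneg _).trans (hM 0 (by simp))
  have hN0 : 0 ≤ N := (abs_nonneg _).trans (hN 0 (by simp))
  have hdw : Differentiable ℝ w := hw.differentiable (by norm_num)
  set C : ℝ := n * M + N' / 2 with hC
  have hC0 : 0 ≤ C := by
    have : 0 ≤ (n:ℝ) * M := mul_nonneg (Nat.cast_nonneg n) hM0
    linarith
  -- the odd part
  set v : (Fin n → ℝ) → ℝ := fun y => (1 / 2) * (w (x + y) - w (x + reflq q y)) with hv
  set P : (Fin n → ℝ) → ℝ := fun y => M * ∑ j, y j ^ 2 + C * (y q - y q ^ 2) with hP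
  set h : (Fin n → ℝ) → ℝ := fun y => v y - P y with hh
  have hw1 : ContDiff ℝ 2 (fun y : Fin n → ℝ => w (x + y)) :=
    hw.comp (contDiff_const.add contDiff_id)
  have hw2 : ContDiff ℝ 2 (fun y : Fin n → ℝ => w (x + reflq q y)) :=
    hw.comp (contDiff_const.add (reflq q).contDiff)
  have hv2 : ContDiff ℝ 2 v := contDiff_const.mul (hw1.sub hw2)
  have hP2 : ContDiff ℝ 2 P := by
    rw [hP]; fun_prop
  have hh2 : ContDiff ℝ 2 h := hv2.sub hP2
  -- derivatives of `v`
  have hvi : ∀ i y, pd i v y = (1 / 2) * (pd i w (x + y)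
      - (if i = q then (-1 : ℝ) else 1) * pd i w (x + reflq q y)) := by
    intro i y
    rw [hv]
    have e1 : pd i (fun y : Fin n → ℝ => w (x + y)) y = 1 * pd i w (x + y) :=
      pd_comp_diag x (ContinuousLinearMap.id ℝ _) (fun _ => 1) (by simp) (hdw _)
    have e2 : pd i (fun y : Fin n → ℝ => w (x + reflq q y)) y
        = (if i = q then (-1 : ℝ) else 1) * pd i w (x + reflq q y) :=
      pd_comp_diag x (reflq q) (fun i => if i = q then (-1 : ℝ) else 1)
        (fun i => reflq_single q i) (hdw _)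
    have d1 : DifferentiableAt ℝ (fun y : Fin n → ℝ => w (x + y)) y :=
      (hw1.differentiable (by norm_num)) y
    have d2 : DifferentiableAt ℝ (fun y : Fin n → ℝ => w (x + reflq q y)) y :=
      (hw2.differentiable (by norm_num)) y
    rw [pd_mul (f := fun _ => (1 / 2 : ℝ)) (by fun_prop) (d1.fun_sub d2), pd_const, pd_sub d1 d2, e1, e2]
    ring
  have hvii : ∀ i y, pd i (pd i v) y = (1 / 2) * (pd i (pd i w) (x + y)
      - pd i (pd i w) (x + reflq q y)) := by
    intro i y
    have e0 : pd i v = fun y => (1 / 2) * (pd i w (x + y)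
      - (if i = q then (-1 : ℝ) else 1) * pd i w (x + reflq q y)) := by
      funext y; exact hvi i y
    rw [e0]
    have hpw : ContDiff ℝ 1 (pd i w) := contDiff_pd_one hw
    have hdpw : Differentiable ℝ (pd i w) := hpw.differentiable (by norm_num)
    have e1 : pd i (fun y : Fin n → ℝ => pd i w (x + y)) y = 1 * pd i (pd i w) (x + y) :=
      pd_comp_diag x (ContinuousLinearMap.id ℝ _) (fun _ => 1) (by simp) (hdpw _)
    have e2 : pd i (fun y : Fin n → ℝ => pd i w (x + reflq q y)) y
        = (if i = q then (-1 : ℝ) else 1) * pd i (pd i w) (x + reflq q y) :=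
      pd_comp_diag x (reflq q) (fun i => if i = q then (-1 : ℝ) else 1)
        (fun i => reflq_single q i) (hdpw _)
    have d1 : DifferentiableAt ℝ (fun y : Fin n → ℝ => pd i w (x + y)) y := by
      have : ContDiff ℝ 1 (fun y : Fin n → ℝ => pd i w (x + y)) :=
        hpw.comp (contDiff_const.add contDiff_id)
      exact (this.differentiable (by norm_num)) y
    have d2 : DifferentiableAt ℝ (fun y : Fin n → ℝ => pd i w (x + reflq q y)) y := by
      have : ContDiff ℝ 1 (fun y : Fin n → ℝ => pd i w (x + reflq q y)) :=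
        hpw.comp (contDiff_const.add (reflq q).contDiff)
      exact (this.differentiable (by norm_num)) y
    rw [pd_mul (f := fun _ => (1 / 2 : ℝ)) (by fun_prop)
      (d1.fun_sub ((differentiableAt_const _).fun_mul d2)), pd_const,
      pd_sub d1 ((differentiableAt_const _).fun_mul d2),
      pd_mul (f := fun _ => (if i = q then (-1 : ℝ) else 1)) (by fun_prop) d2, pd_const, e1, e2]
    split_ifs <;> ring
  have hhii : ∀ i y, pd i (pd i h) y = (1 / 2) * (pd i (pd i w) (x + y)
      - pd i (pd i w) (x + reflq q y)) - (2 * M - 2 * C * (if q = i then 1 else 0)) := by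
    intro i y
    have dv : Differentiable ℝ v := hv2.differentiable (by norm_num)
    have dP : Differentiable ℝ P := hP2.differentiable (by norm_num)
    have e0 : pd i h = fun y => pd i v y - pd i P y := by
      funext y; exact pd_sub (dv y) (dP y)
    rw [e0, pd_sub ((contDiff_pd_one hv2).differentiable (by norm_num) y)
      ((contDiff_pd_one hP2).differentiable (by norm_num) y), hvii, pd_pd_poly]
  have hlap : ∀ y, ‖y‖ ≤ 1 → 0 < ∑ i, pd i (pd i h) y := by
    intro y hy
    have e1 : ∑ i, pd i (pd i h) y = (1 / 2) * (∑ i, pd i (pd i w) (x + y)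
      - ∑ i, pd i (pd i w) (x + reflq q y)) - (n * (2 * M) - 2 * C) := by
      simp_rw [hhii]
      rw [Finset.sum_sub_distrib, ← Finset.mul_sum, Finset.sum_sub_distrib,
        Finset.sum_sub_distrib, ← Finset.mul_sum]
      simp only [one_div, Finset.sum_const, Finset.card_univ, Fintype.card_fin, nsmul_eq_mul, mul_ite, mul_one, mul_zero, Finset.sum_ite_eq, Finset.mem_univ, ↓reduceIte, sub_right_inj, sub_left_inj]
      ring
    rw [e1]
    have a1 := abs_le.mp (hN y hy)
    have a2 := abs_le.mp (hN (reflq q y) (norm_reflq q hy))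
    rw [hC]
    (clear * - n w x y q M N' N hN' a1 a2; linarith [a1.1, a2.2])
  -- the box
  set a : Fin n → ℝ := fun j => if j = q then 0 else -1 with ha
  set K : Set (Fin n → ℝ) := Set.Icc a (fun _ => 1) with hK
  have hKc : IsCompact K := isCompact_Icc
  have hKne : K.Nonempty := by
    refine ⟨fun _ => 0, ?_, ?_⟩
    · intro j; simp only [ha]; split_ifs <;> norm_num
    · intro j; norm_num
  obtain ⟨y0, hy0K, hy0⟩ := hKc.exists_isMaxOn hKne hh2.continuous.continuousOn
  have hneg : h y0 ≤ 0 := by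
    by_contra hpos
    push Not at hpos
    have hlow : ∀ j, a j ≤ y0 j := fun j => hy0K.1 j
    have hupp : ∀ j, y0 j ≤ 1 := fun j => hy0K.2 j
    have hy1 : ‖y0‖ ≤ 1 := by
      refine (pi_norm_le_iff_of_nonneg zero_le_one).mpr fun j => ?_
      rw [Real.norm_eq_abs, abs_le]
      refine ⟨le_trans ?_ (hlow j), hupp j⟩
      simp only [ha]
      split_ifs <;> norm_num
    have hq0 : 0 ≤ y0 q := by have := hlow q; simpa only [ge_iff_le, ha, ↓reduceIte] using this
    have hq1 : y0 q ≤ 1 := hupp q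
    have hCq : 0 ≤ C * (y0 q - y0 q ^ 2) := by
      apply mul_nonneg hC0; (clear * - y0 q hq0 hq1; nlinarith only [hq0, hq1])
    have hvM : v y0 ≤ M := by
      have b1 := (abs_le.mp (hM y0 hy1)).2
      have b2 := (abs_le.mp (hM (reflq q y0) (norm_reflq q hy1))).1
      rw [hv]; simp only; (clear * - w n x y0 q M b1 b2; linarith only [b1, b2])
    have hsumsq : ∀ j, y0 j ^ 2 ≤ ∑ j, y0 j ^ 2 := fun j =>
      Finset.single_le_sum (f := fun j => y0 j ^ 2) (fun i _ => sq_nonneg _) (Finset.mem_univ j)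
    have key : ∀ j, y0 j ^ 2 < 1 := by
      intro j
      by_contra hj
      push Not at hj
      have : M * 1 ≤ M * ∑ j, y0 j ^ 2 := by
        apply mul_le_mul_of_nonneg_left _ hM0
        exact hj.trans (hsumsq j)
      have : h y0 ≤ 0 := by
        rw [hh]; simp only [hP]; linarith only [hCq, hvM, this]
      linarith
    have hqne : 0 < y0 q := by
      rcases hq0.lt_or_eq with h1 | h1
      · exact h1
      · exfalso
        have h2 : reflq q y0 = y0 := reflq_of_zero q h1.symm
        have h3 : v y0 = 0 := by rw [hv]; simp only [h2]; ring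
        have h4 : 0 ≤ M * ∑ j, y0 j ^ 2 :=
          mul_nonneg hM0 (Finset.sum_nonneg fun i _ => sq_nonneg _)
        have : h y0 ≤ 0 := by
          rw [hh]; simp only [hP, h3]; (clear * - M n y0 C q h v w x N' P hpos hCq h3 h4; linarith only [hCq, h4])
        linarith only [hpos, hCq, h3, h4]
    have hint : K ∈ 𝓝 y0 := by
      rw [hK, ← Set.pi_univ_Icc]
      apply set_pi_mem_nhds Set.finite_univ
      intro j _
      apply Icc_mem_nhds
      · simp only [ha]
        split_ifs with hj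
        · rw [hj]; exact hqne
        · (clear * - y0 j key; nlinarith only [key j])
      · (clear * - y0 j key; nlinarith [key j])
    have hloc : IsLocalMax h y0 := hy0.isLocalMax hint
    have := Finset.sum_nonpos (s := Finset.univ)
      (fun i _ => pd2_nonpos_of_isLocalMax hh2 hloc i)
    exact absurd (hlap y0 hy1) (not_lt.mpr this)
  -- conclusion along the axis
  have haxis : ∀ s : ℝ, 0 ≤ s → s ≤ 1 →
      (1 / 2) * (w (x + s • Pi.single q 1) - w (x + (-s) • Pi.single q 1))
        ≤ M * s ^ 2 + C * (s - s ^ 2) := by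
    intro s hs0 hs1
    have hmem : (s • Pi.single q 1 : Fin n → ℝ) ∈ K := by
      constructor
      · intro j
        simp only [ha, Pi.smul_apply, smul_eq_mul, Pi.single_apply]
        split_ifs <;> (clear * - s hs0; nlinarith)
      · intro j
        simp only [Pi.smul_apply, smul_eq_mul, Pi.single_apply]
        split_ifs <;> (clear * - s hs1; nlinarith)
    have h1 : h (s • Pi.single q 1) ≤ 0 := (hy0 hmem).trans hneg
    have h2 : reflq q (s • Pi.single q 1) = (-s) • Pi.single q 1 := by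
      rw [map_smul, reflq_single]; simp
    have h3 : ∑ j, ((s • Pi.single q 1 : Fin n → ℝ) j) ^ 2 = s ^ 2 := by
      simp only [Pi.smul_apply, Pi.single_apply, smul_eq_mul, mul_ite, mul_one, mul_zero, ite_pow, ne_eq, OfNat.ofNat_ne_zero, not_false_eq_true, zero_pow, Finset.sum_ite_eq', Finset.mem_univ, ↓reduceIte]
    have h4 : (s • Pi.single q 1 : Fin n → ℝ) q = s := by simp
    rw [hh] at h1
    simp only [hP, hv, h2, h3, h4] at h1
    (clear * - w n x s q M C N' h1; linarith)
  -- differentiate at zero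
  set g : ℝ → ℝ := fun s => M * s ^ 2 + C * (s - s ^ 2)
    - (1 / 2) * (w (x + s • Pi.single q 1) - w (x + (-s) • Pi.single q 1)) with hg
  have hgd : HasDerivAt g (C - pd q w x) 0 := by
    have g1 : HasDerivAt (fun s : ℝ => w (x + s • Pi.single q 1)) (pd q w x) 0 := by
      have := hasDerivAt_dir (w := w) (x := x) (v := Pi.single q 1) (s := 0) (hdw _)
      simpa only [pd, zero_smul, add_zero] using this
    have g2 : HasDerivAt (fun s : ℝ => w (x + (-s) • Pi.single q 1)) (-(pd q w x)) 0 := by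
      have h0 : HasDerivAt (fun s : ℝ => w (x + s • Pi.single q 1)) (pd q w x) (-0) := by
        simpa using g1
      have := h0.scomp (0 : ℝ) (hasDerivAt_neg (0:ℝ))
      simpa only [neg_smul, Function.comp_def, smul_eq_mul, neg_mul, one_mul] using this
    have g3 : HasDerivAt (fun s : ℝ => M * s ^ 2 + C * (s - s ^ 2)) C 0 := by
      have e1 : HasDerivAt (fun s : ℝ => s ^ 2) 0 0 := by
        simpa only [Nat.cast_ofNat, Nat.add_one_sub_one, pow_one, mul_zero] using (hasDerivAt_pow 2 (0 : ℝ))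
      have e2 : HasDerivAt (fun s : ℝ => s - s ^ 2) 1 0 := by
        simpa only [sub_zero] using (hasDerivAt_id' (0 : ℝ)).fun_sub e1
      simpa only [mul_zero, mul_one, zero_add] using (e1.const_mul M).fun_add (e2.const_mul C)
    have := g3.fun_sub ((g1.fun_sub g2).const_mul (1 / 2))
    have e3 : C - 1 / 2 * (pd q w x - -pd q w x) = C - pd q w x := by ring
    rw [e3] at this
    exact this
  have hg0 : g 0 = 0 := by simp only [hg, one_div, neg_smul, ne_eq, OfNat.ofNat_ne_zero, not_false_eq_true, zero_pow, mul_zero, sub_self, add_zero, zero_smul, neg_zero]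
  have hgnn : ∀ s : ℝ, 0 ≤ s → s ≤ 1 → 0 ≤ g s := by
    intro s h0 h1
    have := haxis s h0 h1
    simp only [hg]; (clear * - M s C w n x q N' this; linarith)
  have hfin : 0 ≤ C - pd q w x := by
    have hsl := (hasDerivAt_iff_tendsto_slope_zero.mp hgd)
    have hsl' : Tendsto (fun t : ℝ => t⁻¹ • (g (0 + t) - g 0)) (𝓝[>] 0) (𝓝 (C - pd q w x)) :=
      hsl.mono_left (nhdsWithin_mono _ (fun t ht => ne_of_gt ht))
    refine ge_of_tendsto hsl' ?_
    have : Set.Ioo (0:ℝ) 1 ∈ 𝓝[>] (0:ℝ) := Ioo_mem_nhdsGT one_pos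
    filter_upwards [this] with t ht
    rw [hg0, zero_add, sub_zero, smul_eq_mul]
    exact mul_nonneg (inv_nonneg.mpr ht.1.le) (hgnn t ht.1.le ht.2.le)
  linarith only [hfin]

/-- interior gradient estimate on the unit box. -/
lemma grad_loc {w : (Fin n → ℝ) → ℝ} (hw : ContDiff ℝ 2 w) {M N : ℝ} {x : Fin n → ℝ}
    (hM : ∀ y, ‖y‖ ≤ 1 → |w (x + y)| ≤ M)
    (hN : ∀ y, ‖y‖ ≤ 1 → |∑ i, pd i (pd i w) (x + y)| ≤ N) (q : Fin n) :
    |pd q w x| ≤ n * M + N / 2 := by
  have hup : ∀ w : (Fin n → ℝ) → ℝ, ContDiff ℝ 2 w → (∀ y, ‖y‖ ≤ 1 → |w (x + y)| ≤ M) →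
      (∀ y, ‖y‖ ≤ 1 → |∑ i, pd i (pd i w) (x + y)| ≤ N) → pd q w x ≤ n * M + N / 2 := by
    intro w hw hM hN
    apply le_of_forall_pos_le_add
    intro ε hε
    have := grad_aux hw hM hN (N' := N + 2 * ε) (by linarith) q
    linarith only [this]
  rw [abs_le]
  constructor
  · have hneg : ∀ i, pd i (fun y => - w y) = fun y => - pd i w y := by
      intro i; funext y; exact pd_neg
    have := hup (fun y => - w y) hw.neg (fun y hy => by rw [abs_neg]; exact hM y hy) (by
      intro y hy
      have : ∑ i, pd i (pd i (fun y => - w y)) (x + y) = - ∑ i, pd i (pd i w) (x + y) := by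
        simp_rw [hneg]
        rw [← Finset.sum_neg_distrib]
        exact Finset.sum_congr rfl fun i _ => pd_neg
      rw [this, abs_neg]; exact hN y hy)
    rw [hneg] at this
    linarith
  · exact hup w hw hM hN

/-- the universal upper bound at the centre of a box of size `s`. -/
lemma ko_up {w : (Fin n → ℝ) → ℝ} (hw : ContDiff ℝ 2 w) {x : Fin n → ℝ} {s δ : ℝ} (hs0 : 0 < s)
    (hδ : 0 < δ) (l7 : 2 * n + 8 ≤ (δ * s) ^ 2)
    (he : ∀ y, ‖y - x‖ ≤ s → ∑ i, pd i (pd i w) y = w y ^ 3 - w y) : w x ≤ 1 + δ := by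
  have hn : (0:ℝ) ≤ n := Nat.cast_nonneg n
  have hsd : 0 < s ^ 2 * δ := by positivity
  obtain ⟨σ, hσ⟩ : ∃ σ : (Fin n → ℝ) → ℝ, σ = fun y => s ^ 2 - esq (y - x) := ⟨_, rfl⟩
  obtain ⟨θ, hθ⟩ : ∃ θ : (Fin n → ℝ) → ℝ, θ = fun y => w y - 1 := ⟨_, rfl⟩
  have c1 : ContDiff ℝ 2 σ := by rw [hσ]; exact contDiff_const.sub (H765.esq_contDiff x)
  have c2 : ContDiff ℝ 2 θ := by rw [hθ]; exact hw.sub contDiff_const
  have d1 : Differentiable ℝ σ := c1.differentiable (by norm_num)
  have d2 : Differentiable ℝ θ := c2.differentiable (by norm_num)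
  have dw : Differentiable ℝ w := hw.differentiable (by norm_num)
  have p1 : ∀ i y, pd i σ y = -2 * (y i - x i) := by
    intro i y
    rw [hσ, pd_sub (differentiableAt_const _)
      ((H765.esq_contDiff (k := 1) x).differentiable (by norm_num) y), pd_const, H765.pd_esq]
    ring
  have p2 : ∀ i y, pd i (pd i σ) y = -2 := by
    intro i y
    rw [show pd i σ = fun y => -2 * (y i - x i) from funext (p1 i),
      pd_mul (f := fun _ => (-2:ℝ)) (by fun_prop) (by fun_prop), pd_const,
      pd_sub (by fun_prop) (by fun_prop), pd_const, pd_coord]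
    simp
  have p3 : ∀ i, pd i θ = pd i w := by
    intro i; funext y
    rw [hθ, pd_sub (dw y) (differentiableAt_const _), pd_const, sub_zero]
  have e0 : esq (x - x) = 0 := by rw [sub_self]; simp [esq]
  have cg : ContDiff ℝ 2 fun y => σ y * θ y := c1.mul c2
  obtain ⟨p, hp, hmax⟩ := (H765.isCompact_esq_le x (s ^ 2)).exists_isMaxOn
    ⟨x, by show esq (x - x) ≤ s ^ 2; rw [e0]; positivity⟩ cg.continuous.continuousOn
  have hp' : esq (p - x) ≤ s ^ 2 := hp
  by_contra hneg
  push Not at hneg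
  have hx : σ x * θ x ≤ σ p * θ p :=
    hmax (show esq (x - x) ≤ s ^ 2 by rw [e0]; positivity)
  have hσx : σ x = s ^ 2 := by rw [hσ]; simp only [e0]; ring
  have hθx : δ < θ x := by rw [hθ]; simp only; linarith
  have hgp : s ^ 2 * δ < σ p * θ p := by
    rw [hσx] at hx
    nlinarith [sq_pos_of_pos hs0]
  have hσp0 : 0 ≤ σ p := by rw [hσ]; simp only; linarith
  have hσp1 : σ p ≤ s ^ 2 := by rw [hσ]; simp only; linarith [esq_nonneg (p - x)]
  have hσp : 0 < σ p := by
    rcases hσp0.lt_or_eq with h | h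
    · exact h
    · rw [← h, zero_mul] at hgp; linarith
  have hθp : 0 < θ p := by
    by_contra h
    push Not at h
    nlinarith [mul_nonneg hσp0 (neg_nonneg.mpr h)]
  have hloc : IsLocalMax (fun y => σ y * θ y) p := by
    have hopen : IsOpen {y : Fin n → ℝ | esq (y - x) < s ^ 2} :=
      isOpen_lt (H765.continuous_esq_sub x) continuous_const
    have hin : esq (p - x) < s ^ 2 := by
      have : σ p = s ^ 2 - esq (p - x) := by rw [hσ]
      linarith
    filter_upwards [hopen.mem_nhds hin] with y hy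
    exact hmax (show esq (y - x) ≤ s ^ 2 from (show esq (y - x) < s ^ 2 from hy).le)
  have q1 : ∀ i, σ p * pd i θ p + pd i σ p * θ p = 0 := by
    intro i
    have h1 : pd i (fun y => σ y * θ y) p = 0 := by
      unfold pd
      rw [hloc.fderiv_eq_zero]; rfl
    rw [pd_mul (d1 p) (d2 p)] at h1
    linarith
  have q2 : SM.lap (fun y => σ y * θ y) p ≤ 0 :=
    Finset.sum_nonpos fun i _ => pd2_nonpos_of_isLocalMax cg hloc i
  rw [SM.lap_mul c1 c2] at q2
  have l1 : SM.lap σ p = -2 * n := by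
    unfold SM.lap
    simp_rw [p2]
    simp; ring
  have hpx : ‖p - x‖ ≤ s := by
    have h1 := norm_le_eno (p - x)
    have h2 : eno (p - x) ≤ s := by
      unfold eno
      rw [Real.sqrt_le_left hs0.le]; exact hp'
    linarith
  have l2 : SM.lap θ p = w p ^ 3 - w p := by
    unfold SM.lap
    simp_rw [p3]
    exact he p hpx
  have l3 : σ p * SM.gg σ θ p = -4 * esq (p - x) * θ p := by
    unfold SM.gg esq
    rw [Finset.mul_sum, Finset.mul_sum, Finset.sum_mul]
    refine Finset.sum_congr rfl fun i _ => ?_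
    have h1 := q1 i
    rw [p1] at h1 ⊢
    simp only [Pi.sub_apply]
    linear_combination (-2 * (p i - x i)) * h1
  have l4 : θ p ^ 3 ≤ w p ^ 3 - w p := by
    have : w p = θ p + 1 := by rw [hθ]; simp
    rw [this]; nlinarith [sq_nonneg (θ p)]
  rw [l1, l2] at q2
  have l5 : σ p ^ 2 * θ p ^ 3 ≤ (2 * n + 8) * s ^ 2 * θ p := by
    have h1 : σ p * (σ p * (w p ^ 3 - w p) + 2 * SM.gg σ θ p + θ p * (-2 * n)) ≤ 0 := by
      apply mul_nonpos_of_nonneg_of_nonpos hσp0
      linarith
    have h2 : σ p ^ 2 * θ p ^ 3 ≤ σ p ^ 2 * (w p ^ 3 - w p) :=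
      mul_le_mul_of_nonneg_left l4 (sq_nonneg _)
    have h3 : esq (p - x) * θ p ≤ s ^ 2 * θ p := mul_le_mul_of_nonneg_right hp' hθp.le
    have h4 : n * (σ p * θ p) ≤ n * (s ^ 2 * θ p) :=
      mul_le_mul_of_nonneg_left (mul_le_mul_of_nonneg_right hσp1 hθp.le) hn
    nlinarith
  have l6 : (σ p * θ p) ^ 2 ≤ (2 * n + 8) * s ^ 2 := by
    have : (σ p * θ p) ^ 2 * θ p ≤ (2 * n + 8) * s ^ 2 * θ p := by nlinarith
    exact le_of_mul_le_mul_right this hθp
  have l8 : (s ^ 2 * δ) ^ 2 < (σ p * θ p) ^ 2 := pow_lt_pow_left₀ hgp hsd.le two_ne_zero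
  have l9 := mul_le_mul_of_nonneg_right l7 (sq_nonneg s)
  nlinarith

/-- the universal bound. -/
lemma ko {w : (Fin n → ℝ) → ℝ} (hw : ContDiff ℝ 2 w) {x : Fin n → ℝ} {s δ : ℝ} (hs0 : 0 < s)
    (hδ : 0 < δ) (l7 : 2 * n + 8 ≤ (δ * s) ^ 2)
    (he : ∀ y, ‖y - x‖ ≤ s → ∑ i, pd i (pd i w) y = w y ^ 3 - w y) : |w x| ≤ 1 + δ := by
  have h1 := ko_up hw hs0 hδ l7 he
  have h2 := ko_up (w := fun y => - w y) hw.neg (x := x) hs0 hδ l7 fun y hy => by
    have h3 := SM.lap_neg hw y
    unfold SM.lap at h3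
    rw [h3, he y hy]; ring
  rw [abs_le]
  constructor <;> linarith

/-- entire solutions are bounded by one. -/
theorem sol_of_eq {w : (Fin n → ℝ) → ℝ} (hw : ContDiff ℝ 2 w)
    (he : ∀ y, ∑ i, pd i (pd i w) y = w y ^ 3 - w y) : Sol w := by
  refine ⟨hw, fun x => le_of_forall_pos_le_add fun δ hδ => ?_, he⟩
  have hn : (0:ℝ) ≤ n := Nat.cast_nonneg n
  refine ko hw (s := (n + 3) / δ) (by positivity) hδ ?_ fun y _ => he y
  rw [mul_div_cancel₀ _ hδ.ne']
  nlinarith

end Vale.Agent.N134
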