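import Vale.Agent.N134.Euc

/-! N134: the local theorems from the rigidity of entire solutions. -/

set_option linter.all false

open Filter Topology MeasureTheory Metric
open scoped InnerProductSpace Laplacian

namespace Vale.Agent.N134

open Vale.Agent.P134 Vale.Agent.P134.SM

variable {n m : ℕ}

/-- stability on the whole space, in coordinates. -/
def Stb (U : (Fin n → ℝ) → ℝ) : Prop := ∀ η : (Fin n → ℝ) → ℝ, ContDiff ℝ (⊤ : ℕ∞) η →
  HasCompactSupport η → 0 ≤ ∫ x, (gs η x + (3 * U x ^ 2 - 1) * η x ^ 2)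

/-- rigidity of stable entire solutions. -/
def Rg (n : ℕ) : Prop := ∀ U : (Fin n → ℝ) → ℝ, Sol U → Stb U → ∀ x, defi U x = 0

/-- rigidity of monotone entire solutions and of stable cylinders. -/
def Mg (m : ℕ) : Prop := ∀ U : (Fin (m + 1) → ℝ) → ℝ, Sol U →
  ((∀ x, 0 < pd (Fin.last m) U x) ∨
    (Stb U ∧ ∀ x (t : ℝ), U (x + t • Pi.single (Fin.last m) 1) = U x)) → ∀ x, defi U x = 0

lemma cub_lim {a b c δ : ℝ} (hc : |c| ≤ 1) (hδ : δ ≤ 1) (ha : |a - c| ≤ δ) (hb : |b - c| ≤ δ) :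
    a ^ 2 + a * b + b ^ 2 - 1 ≤ 3 * c ^ 2 - 1 + 9 * δ := by
  have h0 : 0 ≤ δ := (abs_nonneg _).trans ha
  have e : a ^ 2 + a * b + b ^ 2 = 3 * c ^ 2 + 3 * (c * (a - c)) + 3 * (c * (b - c))
      + ((a - c) * (a - c) + (a - c) * (b - c) + (b - c) * (b - c)) := by ring
  have k : ∀ s t A B : ℝ, |s| ≤ A → |t| ≤ B → s * t ≤ A * B := fun s t A B h1 h2 =>
    (le_abs_self _).trans (by
      rw [abs_mul]; exact mul_le_mul h1 h2 (abs_nonneg _) ((abs_nonneg _).trans h1))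
  have h1 := k _ _ _ _ hc ha
  have h2 := k _ _ _ _ hc hb
  have h3 := k _ _ _ _ ha (hb.trans hδ)
  have h4 := k _ _ _ _ ha (ha.trans hδ)
  have h5 := k _ _ _ _ hb (hb.trans hδ)
  linarith

theorem loc_stab (hR : Rg n) (ρ : ℝ) {ε : ℝ} (hε : 0 < ε) : ∃ r : ℕ, ∀ w : (Fin n → ℝ) → ℝ,
    LSol r w → (∀ ξ : (Fin n → ℝ) → ℝ, ContDiff ℝ (⊤ : ℕ∞) ξ → HasCompactSupport ξ →
      (∀ y ∈ tsupport ξ, ‖y‖ ≤ r) → 0 ≤ ∫ y, (gs ξ y + (3 * w y ^ 2 - 1) * ξ y ^ 2)) →
    ∃ U, Sol U ∧ (∀ x, defi U x = 0) ∧ CL w U ρ ε := by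
  by_contra h
  push Not at h
  choose F hF hS hN using h
  obtain ⟨U, hU, hc⟩ := compact hF
  have hs : Stb U := fun η h1 h2 => by
    obtain ⟨σ, hσ⟩ := supp_bd h2
    refine stab_lim (l := uf) (C := fun k x => 3 * F k x ^ 2 - 1)
      (fun k => (continuous_const.mul ((hF k).c2.continuous.pow 2)).sub continuous_const)
      ((continuous_const.mul (hU.c2.continuous.pow 2)).sub continuous_const)
      (h1.of_le (by exact_mod_cast le_top)) h2 (fun δ hδ => ?_)
      ((uf_ev σ).mono fun k hk => hS k η h1 h2 fun y hy => (hσ y hy).trans hk)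
    filter_upwards [hc σ (min 1 (δ / 9)) (by positivity)] with k hk x hx
    have h3 := (hk x (hσ x hx)).1
    have h4 := cub_lim (hU.bd x) (min_le_left _ _) h3 h3
    have h5 := min_le_right 1 (δ / 9)
    nlinarith
  obtain ⟨k, hk⟩ := (hc ρ ε hε).exists
  exact hN k U hU (hR U hU hs) hk

lemma step_pos {w : (Fin n → ℝ) → ℝ} (hw : Differentiable ℝ w) {q : Fin n} {r : ℝ}
    (h : ∀ y, ‖y‖ ≤ r → 0 < pd q w y) {x : Fin n → ℝ} (hx : ‖x‖ + 1 ≤ r) :
    0 < w (x + Pi.single q 1) - w x := by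
  have hd : ∀ t : ℝ, HasDerivAt (fun s : ℝ => w (x + s • Pi.single q 1))
      (pd q w (x + t • Pi.single q 1)) t := fun t => hasDerivAt_dir (hw _)
  obtain ⟨t, ht, h1⟩ := exists_hasDerivAt_eq_slope (fun s : ℝ => w (x + s • Pi.single q 1))
    (fun t => pd q w (x + t • Pi.single q 1)) zero_lt_one
    (fun t _ => (hd t).continuousAt.continuousWithinAt) fun t _ => hd t
  have h2 := h (x + t • Pi.single q 1) (by
    have := norm_add_le x (t • Pi.single q 1)
    rw [norm_smul_single, abs_of_pos ht.1] at this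
    linarith [ht.2])
  rw [h1] at h2
  simpa using h2

theorem loc_mono (hM : Mg m) (ρ : ℝ) {ε : ℝ} (hε : 0 < ε) :
    ∃ r : ℕ, ∀ w : (Fin (m + 1) → ℝ) → ℝ, LSol r w →
      (∀ y, ‖y‖ ≤ r → 0 < pd (Fin.last m) w y) →
      ∃ U, Sol U ∧ (∀ x, defi U x = 0) ∧ CL w U ρ ε := by
  by_contra h
  push Not at h
  choose F hF hS hN using h
  obtain ⟨U, hU, hc⟩ := compact hF
  obtain ⟨k, hk⟩ := (hc ρ ε hε).exists
  refine hN k U hU (hM U hU ?_) hk
  have h0 : ∀ x, 0 ≤ pd (Fin.last m) U x := fun x => le_of_forall_pos_le_add fun δ hδ => by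
    obtain ⟨k, h1, h2⟩ := ((hc ‖x‖ δ hδ).and (uf_ev ‖x‖)).exists
    have h3 := (abs_le.mp ((h1 x le_rfl).2.1 (Fin.last m))).2
    linarith [hS k x h2]
  by_cases hp : ∀ x, 0 < pd (Fin.last m) U x
  · exact Or.inl hp
  push Not at hp
  obtain ⟨x0, hx0⟩ := hp
  have hdd : ∀ x, dd (Pi.single (Fin.last m) 1) U x = pd (Fin.last m) U x := fun x =>
    dd_eq_fderiv _ _ _
  have hz := H765.dd_smp hU (e := Pi.single (Fin.last m) 1) (fun x => by rw [hdd]; exact h0 x)
    (x0 := x0) (by rw [hdd]; exact le_antisymm hx0 (h0 x0))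
  have hinv : ∀ x (t : ℝ), U (x + t • Pi.single (Fin.last m) 1) = U x := fun x t => by
    have h1 : ∀ s, HasDerivAt (fun s : ℝ => U (x + s • Pi.single (Fin.last m) 1)) 0 s := by
      intro s
      have := hasDerivAt_dd (hU.c2.differentiable (by norm_num)) x (Pi.single (Fin.last m) 1) s
      rwa [hz] at this
    have h2 := is_const_of_deriv_eq_zero (fun s => (h1 s).differentiableAt)
      (fun s => (h1 s).deriv) t 0
    simpa using h2
  refine Or.inr ⟨fun η h1 h2 => ?_, hinv⟩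
  obtain ⟨σ, hσ⟩ := supp_bd h2
  obtain ⟨e, he⟩ : ∃ e : Fin (m + 1) → ℝ, e = Pi.single (Fin.last m) 1 := ⟨_, rfl⟩
  have he1 : ‖e‖ ≤ 1 := by rw [he, Pi.norm_single]; simp
  have c1 : ContDiff ℝ 1 η := h1.of_le (by exact_mod_cast le_top)
  have hC : ∀ k, Continuous fun x => F k (x + e) ^ 2 + F k (x + e) * F k x + F k x ^ 2 - 1 := by
    intro k
    have := (hF k).c2.continuous
    fun_prop
  refine stab_lim (l := uf) hC
    ((continuous_const.mul (hU.c2.continuous.pow 2)).sub continuous_const) c1 h2 (fun δ hδ => ?_)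
    ((uf_ev (σ + ((m + 1 : ℕ) + 4))).mono fun k hk => picone (contDiff_diff (hF k).c2 e) (hC k)
      c1 h2 (fun x hx => ?_) fun x hx => (hF k).lap_diff (by linarith [hσ x hx]) he1)
  · filter_upwards [hc (σ + 1) (min 1 (δ / 9)) (by positivity)] with k hk x hx
    have h3 := (hk x (by linarith [hσ x hx])).1
    have h4 := (hk (x + e) (by linarith [hσ x hx, norm_add_le x e])).1
    have h5 : U (x + e) = U x := by simpa [he] using hinv x 1
    rw [h5] at h4
    have h6 := cub_lim (hU.bd x) (min_le_left _ _) h4 h3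
    have h7 := min_le_right 1 (δ / 9)
    linarith
  · rw [he]
    refine step_pos ((hF k).c2.differentiable (by norm_num)) (hS k) ?_
    have : (0:ℝ) ≤ (m + 1 : ℕ) := Nat.cast_nonneg _
    linarith [hσ x hx]

lemma Stable.mono {u : E n → ℝ} {A B : Set (E n)} (h : Stable u B) (hAB : A ⊆ B) : Stable u A :=
  fun η h1 => h η ⟨h1.1, h1.2.1, h1.2.2.trans hAB⟩

theorem near_stab (hR : Rg n) {ε : ℝ} (hε : 0 < ε) (ρ : ℝ) : ∃ R ≥ ρ, ∀ (u : E n → ℝ) (p : E n),
    Solves u (ball p R) → Stable u (ball p R) → NearFlat u (ball p ρ) ε := by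
  obtain ⟨r, hr⟩ := loc_stab hR ρ (ε := ε / (n + 1) ^ 2) (by positivity)
  have h0 : (0:ℝ) ≤ n * r := by positivity
  have h1 := le_abs_self ρ
  have h2 := abs_nonneg ρ
  refine ⟨n * r + |ρ| + 1 + 1, by linarith, fun u p hu hs => ?_⟩
  obtain ⟨w, hw, huw⟩ := exists_ext p (R := n * r + |ρ| + 1) (by linarith) hu.1
  have hb : ball p (n * r + |ρ| + 1) ⊆ ball p (n * r + |ρ| + 1 + 1) := ball_subset_ball (by linarith)
  obtain ⟨U, hU, hD, hC⟩ := hr _ (lsol_crd (EuclideanSpace.basisFun (Fin n) ℝ) p (by linarith) hw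
    huw fun x hx => hu.2 x (hb hx)) fun ξ c1 c2 c3 =>
      stab_crd _ p (by linarith) huw (hs.mono hb) c1 c2 c3
  exact near_of_cl _ p hw hε.le (fun x hx => huw x (ball_subset_ball (by linarith) hx)) hU hD hC

theorem near_mono (hM : Mg m) {ε : ℝ} (hε : 0 < ε) (ρ : ℝ) :
    ∃ R ≥ ρ, ∀ (u : E (m + 1) → ℝ) (p a : E (m + 1)), Solves u (ball p R) →
      (∀ x ∈ ball p R, 0 < fderiv ℝ u x a) → NearFlat u (ball p ρ) ε := by
  obtain ⟨r, hr⟩ := loc_mono hM ρ (ε := ε / ((m + 1 : ℕ) + 1) ^ 2) (by positivity)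
  obtain ⟨A, hA⟩ : ∃ A : ℝ, A = (m + 1 : ℕ) * r := ⟨_, rfl⟩
  have h0 : 0 ≤ A := by rw [hA]; positivity
  have h1 := le_abs_self ρ
  have h2 := abs_nonneg ρ
  refine ⟨A + |ρ| + 1 + 1, by linarith, fun u p a hu ha => ?_⟩
  obtain ⟨w, hw, huw⟩ := exists_ext p (R := A + |ρ| + 1) (by linarith) hu.1
  have hb : ball p (A + |ρ| + 1) ⊆ ball p (A + |ρ| + 1 + 1) := ball_subset_ball (by linarith)
  have ha0 : a ≠ 0 := by
    rintro rfl
    simpa using ha p (mem_ball_self (by linarith))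
  have hn : 0 < ‖a‖⁻¹ := inv_pos.mpr (norm_pos_iff.mpr ha0)
  obtain ⟨b, hb'⟩ := Orthonormal.exists_orthonormalBasis_extension_of_card_eq (𝕜 := ℝ)
    (E := E (m + 1)) (ι := Fin (m + 1)) (by simp) (v := fun _ => ‖a‖⁻¹ • a)
    (s := {Fin.last m}) ⟨fun i => by
      show ‖‖a‖⁻¹ • a‖ = 1
      rw [norm_smul, _root_.norm_inv, norm_norm, inv_mul_cancel₀ (norm_ne_zero_iff.mpr ha0)],
      fun i j hij => (hij (Subsingleton.elim i j)).elim⟩
  have hlt : ((m + 1 : ℕ) : ℝ) * r < A + |ρ| + 1 := by linarith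
  obtain ⟨U, hU, hD, hC⟩ := hr _ (lsol_crd b p hlt hw huw fun x hx => hu.2 x (hb hx))
    fun y hy => by
      have hm := mem_crd b p hlt hy
      rw [pd_coord_comp (hw.differentiable (by norm_num)), (huw _ hm).fderiv_eq, hb' _ rfl,
        map_smul]
      exact mul_pos hn (ha _ (hb hm))
  exact near_of_cl b p hw hε.le (fun x hx => huw x (ball_subset_ball (by linarith) hx)) hU hD hC

lemma layer_pos {u : E n → ℝ} (du : Differentiable ℝ u) {e : E n} {c : ℝ} (he : ‖e‖ = 1)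
    (h : ∀ x, u x = Real.tanh ((⟪e, x⟫_ℝ - c) / √2)) (x : E n) : 0 < fderiv ℝ u x e := by
  have h1 : HasDerivAt (fun t : ℝ => u (x + t • e)) (fderiv ℝ u (x + (0:ℝ) • e) e) 0 := by
    have h3 : HasDerivAt (fun t : ℝ => x + t • e) e 0 := by
      simpa using ((hasDerivAt_id (0:ℝ)).smul_const e).const_add x
    exact (du (x + (0:ℝ) • e)).hasFDerivAt.comp_hasDerivAt 0 h3
  have h2 : (fun t : ℝ => u (x + t • e)) = fun t =>
      Real.sinh ((⟪e, x⟫_ℝ + t - c) / √2) / Real.cosh ((⟪e, x⟫_ℝ + t - c) / √2) := by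
    funext t
    rw [h, inner_add_right, inner_smul_right, real_inner_self_eq_norm_sq, he,
      Real.tanh_eq_sinh_div_cosh]
    simp
  have h3 : HasDerivAt (fun t : ℝ => (⟪e, x⟫_ℝ + t - c) / √2) (1 / √2) 0 :=
    (((hasDerivAt_id (0:ℝ)).const_add _).sub_const c).div_const _
  have h4 := h3.sinh.fun_div h3.cosh (Real.cosh_pos _).ne'
  rw [h2] at h1
  rw [zero_smul, add_zero] at h1
  rw [h1.unique h4]
  apply div_pos _ (pow_pos (Real.cosh_pos _) 2)
  have h5 := Real.cosh_sq_sub_sinh_sq ((⟪e, x⟫_ℝ + 0 - c) / √2)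
  have h6 : (0:ℝ) < 1 / √2 := by positivity
  nlinarith

theorem entire_stab (hR : Rg n) (u : E n → ℝ) (hu : Solves u Set.univ) :
    Stable u Set.univ ↔ Flat u := by
  obtain ⟨b, -⟩ : ∃ b : OB n, b = EuclideanSpace.basisFun (Fin n) ℝ := ⟨_, rfl⟩
  have c2 : ContDiff ℝ 2 u := contDiffOn_univ.mp hu.1
  have du : Differentiable ℝ u := c2.differentiable (by norm_num)
  have hU : Sol fun y => u (0 + coordMap b y) :=
    sol_of_eq (cd_crd b 0 c2) fun y => by rw [lap_crd b 0 c2, hu.2 _ (Set.mem_univ _)]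
  constructor
  · intro hs
    have h1 := flat_inv b 0 hU (hR _ hU fun η h1 h2 => by
      obtain ⟨σ, hσ⟩ := supp_bd h2
      exact stab_crd b 0 (r := σ) (R := n * σ + 1) (by linarith) (fun _ _ => EventuallyEq.rfl)
        (hs.mono (Set.subset_univ _)) h1 h2 hσ)
    have e : (fun x => u (0 + coordMap b (inv b 0 x))) = u :=
      funext fun x => congrArg u (coordMap_repr b 0 x)
    rwa [e] at h1
  · rintro (h | h | ⟨e, c, he, h⟩) η ⟨h1, h2, -⟩ <;> unfold Q
    · exact integral_nonneg fun x => by rw [h]; positivity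
    · exact integral_nonneg fun x => by
        show 0 ≤ ‖fderiv ℝ η x‖ ^ 2 + (3 * u x ^ 2 - 1) * η x ^ 2
        rw [h]; norm_num; positivity
    · rw [quad_crd b 0 (h1.differentiable (by simp)) fun x => 3 * u x ^ 2 - 1]
      exact picone (H765.dd_contDiff2 hU fun i => ⟪b i, e⟫_ℝ)
        ((continuous_const.mul (hU.c2.continuous.pow 2)).sub continuous_const)
        (cd_crd b 0 (h1.of_le (by exact_mod_cast le_top))) (h2.comp_homeomorph (chart b 0))
        (fun y _ => by rw [dd_coord du]; exact layer_pos du he h _) fun y _ => H765.lap_dd hU _ y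

/-! ### Finite Morse index -/

lemma sq_sum_disj {ι V : Type*} [Fintype ι] [NormedAddCommGroup V] [NormedSpace ℝ V] (a : ι → ℝ)
    {f : ι → V} (h : ∀ i j, i ≠ j → f i = 0 ∨ f j = 0) :
    ‖∑ i, a i • f i‖ ^ 2 = ∑ i, a i ^ 2 * ‖f i‖ ^ 2 := by
  by_cases h0 : ∀ i, f i = 0
  · simp [h0]
  push Not at h0
  obtain ⟨i, hi⟩ := h0
  have h1 : ∀ j, j ≠ i → f j = 0 := fun j hj => (h j i hj).resolve_right hi
  rw [Finset.sum_eq_single i (fun j _ hj => by rw [h1 j hj, smul_zero]) (by simp),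
    Finset.sum_eq_single i (fun j _ hj => by rw [h1 j hj]; simp) (by simp), norm_smul, mul_pow,
    Real.norm_eq_abs, sq_abs]

lemma int_Q {u η : E n → ℝ} {Ω : Set (E n)} (hu : ContinuousOn u Ω) (h : Test Ω η) :
    Integrable fun x => ‖fderiv ℝ η x‖ ^ 2 + (3 * u x ^ 2 - 1) * η x ^ 2 := by
  rw [← integrableOn_iff_integrable_of_support_subset (s := tsupport η)]
  · refine ContinuousOn.integrableOn_compact h.2.1 ?_
    have c1 : Continuous (fderiv ℝ η) := h.1.continuous_fderiv (by simp)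
    exact (c1.norm.pow 2).continuousOn.add
      (((continuousOn_const.mul ((hu.mono h.2.2).pow 2)).sub continuousOn_const).mul
        (h.1.continuous.pow 2).continuousOn)
  · intro x hx
    by_contra h1
    apply hx
    simp [image_eq_zero_of_notMem_tsupport h1, fderiv_of_notMem_tsupport ℝ h1]

lemma Q_sum {ι : Type} [Fintype ι] {u : E n → ℝ} {Ω : Set (E n)} (hu : ContinuousOn u Ω)
    {η : ι → E n → ℝ} (h : ∀ i, Test Ω (η i))
    (hd : ∀ i j, i ≠ j → Disjoint (tsupport (η i)) (tsupport (η j))) (a : ι → ℝ) :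
    Q u (∑ i, a i • η i) = ∑ i, a i ^ 2 * Q u (η i) := by
  unfold Q
  simp_rw [← integral_const_mul]
  rw [← integral_finsetSum _ fun i _ => (int_Q hu (h i)).const_mul _]
  refine integral_congr_ae (Eventually.of_forall fun x => ?_)
  have h0 : ∀ i j, i ≠ j → x ∉ tsupport (η i) ∨ x ∉ tsupport (η j) := fun i j hij => by
    by_contra hc
    push Not at hc
    exact Set.disjoint_left.mp (hd i j hij) hc.1 hc.2
  have e1 : fderiv ℝ (∑ i, a i • η i) x = ∑ i, a i • fderiv ℝ (η i) x :=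
    (HasFDerivAt.sum fun i _ =>
      ((h i).1.differentiable (by simp) x).hasFDerivAt.const_smul (a i)).fderiv
  have e2 := sq_sum_disj a (f := fun i => fderiv ℝ (η i) x) fun i j hij =>
    (h0 i j hij).imp (fderiv_of_notMem_tsupport ℝ) (fderiv_of_notMem_tsupport ℝ)
  have e3 := sq_sum_disj a (f := fun i => η i x) fun i j hij =>
    (h0 i j hij).imp image_eq_zero_of_notMem_tsupport image_eq_zero_of_notMem_tsupport
  simp only [Real.norm_eq_abs, sq_abs] at e3
  show ‖fderiv ℝ (∑ i, a i • η i) x‖ ^ 2 + (3 * u x ^ 2 - 1) * (∑ i, a i • η i) x ^ 2 = _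
  rw [e1, e2, Finset.sum_apply]
  simp only [Pi.smul_apply]
  rw [e3, Finset.mul_sum, ← Finset.sum_add_distrib]
  exact Finset.sum_congr rfl fun i _ => by ring

lemma Test.sum {ι : Type} [Fintype ι] {Ω : Set (E n)} {η : ι → E n → ℝ} (h : ∀ i, Test Ω (η i))
    (a : ι → ℝ) : Test Ω (∑ i, a i • η i) := by
  have hK : IsCompact (⋃ i, tsupport (η i)) := isCompact_iUnion fun i => (h i).2.1
  have h1 : tsupport (∑ i, a i • η i) ⊆ ⋃ i, tsupport (η i) := by
    refine closure_minimal (fun x hx => ?_) hK.isClosed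
    by_contra hc
    simp only [Set.mem_iUnion, not_exists] at hc
    apply hx
    rw [Finset.sum_apply]
    exact Finset.sum_eq_zero fun i _ => by
      rw [Pi.smul_apply, image_eq_zero_of_notMem_tsupport (hc i), smul_zero]
  refine ⟨?_, hK.of_isClosed_subset (isClosed_tsupport _) h1,
    h1.trans (Set.iUnion_subset fun i => (h i).2.2)⟩
  have e : (∑ i, a i • η i) = fun x => ∑ i, a i • η i x := by
    funext x; rw [Finset.sum_apply]; rfl
  rw [e]
  exact ContDiff.sum fun i _ => (h i).1.const_smul (a i)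

lemma card_le_index {ι : Type} [Fintype ι] {u : E n → ℝ} {Ω : Set (E n)} (hu : ContinuousOn u Ω)
    (hi : IndexLE u Ω m) {η : ι → E n → ℝ} (h : ∀ i, Test Ω (η i)) (hq : ∀ i, Q u (η i) < 0)
    (hd : ∀ i j, i ≠ j → Disjoint (tsupport (η i)) (tsupport (η j))) : Fintype.card ι ≤ m := by
  have hneg : ∀ a : ι → ℝ, a ≠ 0 → Q u (∑ i, a i • η i) < 0 := fun a ha => by
    rw [Q_sum hu h hd]
    obtain ⟨i, hi⟩ := Function.ne_iff.mp ha
    refine (Finset.sum_lt_sum (g := fun _ => (0:ℝ)) (fun j _ =>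
      mul_nonpos_of_nonneg_of_nonpos (sq_nonneg _) (hq j).le) ⟨i, Finset.mem_univ i,
        mul_neg_of_pos_of_neg (sq_pos_of_ne_zero hi) (hq i)⟩).trans_eq (by simp)
  have hli : LinearIndependent ℝ η := by
    rw [Fintype.linearIndependent_iff]
    intro a ha
    by_contra hc
    have h1 := hneg a fun h0 => hc fun i => congrFun h0 i
    rw [ha] at h1
    simp [Q] at h1
  have h2 := hi (Submodule.span ℝ (Set.range η)) fun ξ hξ => by
    obtain ⟨a, rfl⟩ := (Submodule.mem_span_range_iff_exists_fun ℝ).mp hξ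
    exact ⟨Test.sum h a, fun h0 => hneg a fun h1 => h0 (by simp [h1])⟩
  rw [← finrank_span_eq_card hli]
  exact Module.finrank_le_of_rank_le h2

theorem near_index (hR : Rg n) {ε : ℝ} (hε : 0 < ε) (ρ : ℝ) :
    ∃ R ≥ ρ, ∀ (u : E n → ℝ) (Ω : Set (E n)) (m : ℕ), Solves u Ω → IndexLE u Ω m →
      ∃ P : Finset (E n), P.card ≤ m ∧ ∀ x, ball x R ⊆ Ω → (∀ p ∈ P, 2 * R ≤ dist x p) →
        NearFlat u (ball x ρ) ε := by
  classical
  obtain ⟨R, hρ, hR⟩ := near_stab hR hε ρ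
  refine ⟨R, hρ, fun u Ω m hu hi => ?_⟩
  obtain ⟨G, hG⟩ : ∃ G : Finset (E n) → Prop, G = fun P =>
    (∀ p ∈ P, ball p R ⊆ Ω ∧ ¬Stable u (ball p R)) ∧
      ∀ p ∈ P, ∀ q ∈ P, p ≠ q → 2 * R ≤ dist p q := ⟨_, rfl⟩
  have hb : ∀ P, G P → P.card ≤ m := by
    intro P hP
    rw [hG] at hP
    have h1 : ∀ p : P, ∃ η, Test (ball (p : E n) R) η ∧ Q u η < 0 := fun p => by
      have := (hP.1 p p.2).2
      unfold Stable at this
      push Not at this
      exact this
    choose η h2 h3 using h1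
    rw [← Fintype.card_coe]
    exact card_le_index hu.1.continuousOn hi
      (fun p => ⟨(h2 p).1, (h2 p).2.1, (h2 p).2.2.trans (hP.1 p p.2).1⟩) h3 fun p q hpq =>
        (ball_disjoint_ball (by linarith [hP.2 p p.2 q q.2 fun h => hpq (Subtype.ext h)])).mono
          (h2 p).2.2 (h2 q).2.2
  have hS : BddAbove {k | ∃ P, G P ∧ P.card = k} := ⟨m, by rintro _ ⟨P, hP, rfl⟩; exact hb P hP⟩
  obtain ⟨P, hP, hc⟩ := Nat.sSup_mem (s := {k | ∃ P, G P ∧ P.card = k})
    ⟨0, ∅, by rw [hG]; simp, rfl⟩ hS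
  refine ⟨P, hb P hP, fun x hx hd => hR u x ⟨hu.1.mono hx, fun y hy => hu.2 y (hx hy)⟩ ?_⟩
  by_contra hs
  have hxP : x ∉ P := fun h => hs fun η hη => by
    have h1 := hd x h
    rw [dist_self] at h1
    have h2 := hη.2.2
    rw [ball_eq_empty.mpr (by linarith), Set.subset_empty_iff, tsupport_eq_empty_iff] at h2
    simp [h2, Q]
  have h1 : G (insert x P) := by
    rw [hG] at hP ⊢
    refine ⟨fun p hp => ?_, fun p hp q hq hpq => ?_⟩
    · rcases Finset.mem_insert.mp hp with rfl | hp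
      exacts [⟨hx, hs⟩, hP.1 p hp]
    · rcases Finset.mem_insert.mp hp with h3 | h3 <;> rcases Finset.mem_insert.mp hq with h4 | h4
      · exact (hpq (h3.trans h4.symm)).elim
      · rw [h3]; exact hd q h4
      · rw [h4, dist_comm]; exact hd p h3
      · exact hP.2 p h3 q h4 hpq
  have h2 := le_csSup hS ⟨_, h1, rfl⟩
  rw [Finset.card_insert_of_notMem hxP, ← hc] at h2
  omega

end Vale.Agent.N134
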