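import Vale.Agent.N134.Rig

open Metric Vale.Agent.N134

namespace Vale.Agent.N134

/-- (1) The local form of the conjecture of De Giorgi for `n ≤ 8`, uniform in the solution, the
centre and the direction, with no bound on `u`.  (2) The classification of stable entire solutions
for `n ≤ 7`.  (3) Its local form, for solutions of Morse index at most `m`. -/
theorem oldLocal :
    (∀ n ≤ 8, ∀ ε > (0 : ℝ), ∀ ρ : ℝ, ∃ R ≥ ρ, ∀ (u : E n → ℝ) (p a : E n), Solves u (ball p R) →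
      (∀ x ∈ ball p R, 0 < fderiv ℝ u x a) → NearFlat u (ball p ρ) ε) ∧
    (∀ n ≤ 7, ∀ u : E n → ℝ, Solves u Set.univ → (Stable u Set.univ ↔ Flat u)) ∧
    (∀ n ≤ 7, ∀ ε > (0 : ℝ), ∀ ρ : ℝ, ∃ R ≥ ρ, ∀ (u : E n → ℝ) (Ω : Set (E n)) (m : ℕ), Solves u Ω →
      IndexLE u Ω m → ∃ P : Finset (E n), P.card ≤ m ∧ ∀ x, ball x R ⊆ Ω →
        (∀ p ∈ P, 2 * R ≤ dist x p) → NearFlat u (ball x ρ) ε) :=
  ⟨fun _ hn _ hε ρ => near_mono' hn hε ρ, fun _ hn u hu => entire_stab (rg hn) u hu,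
    fun _ hn _ hε ρ => near_index (rg hn) hε ρ⟩

end Vale.Agent.N134
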