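import Vale.Agent.N134.Loc
import Vale.Agent.P134Y.Final
import Vale.Agent.P134Y.Top
import Vale.Agent.P134S.All

/-! N134: rigidity of stable solutions in all dimensions `n ≤ 7`, of monotone solutions and of
stable cylinders in all dimensions `n ≤ 8`. -/

set_option linter.all false

open Filter Topology MeasureTheory Metric
open scoped InnerProductSpace Laplacian

namespace Vale.Agent.N134

open Vale.Agent.P134 Vale.Agent.P134.SM Vale.Agent.P134Y
open Vale.Agent.P134.H491 (HypN)
open Vale.Agent.P134.R2.H561 (SH defi_res)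

variable {n m : ℕ}

lemma hypN_prj {C : ℝ} {V : (Fin n → ℝ) → ℝ} (h : HypN n C V) :
    HypN (n + 1) C fun x => V (prj n x) := by
  intro R ε hR hε
  obtain ⟨X, h1, h2, h3⟩ := h R ε hR hε
  have hb : ∀ x ∈ box (n + 1) R, prj n x ∈ box n R := fun x hx => by
    rw [mem_box] at hx ⊢
    exact fun i => hx _
  refine ⟨fun j => Fin.lastCases (motive := fun _ => (Fin (n + 1) → ℝ) → ℝ) (fun _ => 0)
    (fun i x => X i (prj n x)) j, fun j => ?_, fun x hx => ?_, fun x hx => ?_⟩
  · refine Fin.lastCases ?_ (fun i => ?_) j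
    · simp only [Fin.lastCases_last]
      exact contDiff_const
    · simp only [Fin.lastCases_castSucc]
      exact (h1 i).comp (prj n).contDiff
  · rw [Fin.sum_univ_castSucc]
    simp only [Fin.lastCases_last, Fin.lastCases_castSucc]
    simpa using h2 _ (hb x hx)
  · rw [Fin.sum_univ_castSucc, Fin.sum_univ_castSucc]
    simp only [Fin.lastCases_last, Fin.lastCases_castSucc]
    simp_rw [fun i => pd_prj_cast ((h1 i).differentiable (by norm_num)) i]
    rw [pd_const]
    simpa using h3 _ (hb x hx)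

lemma rig_down (h : RIG (n + 1)) : RIG n := fun u hu y => by
  obtain ⟨h1, C, hC⟩ := hu.sh
  have h2 : SH fun x => u (prj n x) := ⟨sol_prj h1, C, hypN_prj hC⟩
  have h3 := h.sh h2 (Fin.snoc y 0)
  rw [defi_res h2.1 fun x t => by rw [map_add, map_smul, prj_last, smul_zero, add_zero],
    Fin.init_snoc] at h3
  have e : H765.res (fun x => u (prj n x)) = u := by
    funext z
    show u (prj n (Fin.snoc z 0)) = u z
    refine congrArg u (funext fun i => ?_)
    rw [prj_apply, Fin.snoc_castSucc]
  rwa [e] at h3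

lemma rig_le (hn : n ≤ 7) : RIG n :=
  Nat.decreasingInduction (motive := fun k _ => RIG k) (fun _ _ h => rig_down h) rig7 hn

lemma sh_of_stb {U : (Fin n → ℝ) → ℝ} (hU : Sol U) (hs : Stb U) : SH U :=
  ⟨hU, _, H765.hypN_of_stable hU fun η hη => hs η hη.1 hη.2⟩

theorem rg (hn : n ≤ 7) : Rg n := fun U hU hs => (rig_le hn).sh (sh_of_stb hU hs)

theorem mg (hm : m ≤ 7) : Mg m := fun U hU h => by
  rcases h with h | ⟨h1, h2⟩
  · rcases hm.lt_or_eq with h3 | rfl
    · exact rig_le h3 U (st_of_mono hU h)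
    · exact top_last (m := 4) rig7 P134S.sav4 hU h
  · exact cyl (rig_le hm) (sh_of_stb hU h1) h2

theorem near_mono' (hn : n ≤ 8) {ε : ℝ} (hε : 0 < ε) (ρ : ℝ) :
    ∃ R ≥ ρ, ∀ (u : E n → ℝ) (p a : E n), Solves u (ball p R) →
      (∀ x ∈ ball p R, 0 < fderiv ℝ u x a) → NearFlat u (ball p ρ) ε := by
  cases n with
  | succ m => exact near_mono (mg (by omega)) hε ρ
  | zero =>
    refine ⟨|ρ| + 1, by linarith [le_abs_self ρ], fun u p a _ ha => ?_⟩
    have h := ha p (mem_ball_self (by positivity))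
    rw [Subsingleton.elim a 0, map_zero] at h
    exact (lt_irrefl _ h).elim

end Vale.Agent.N134
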